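import Mathlib

namespace Vale.Agent.Results.P160.SparseKernel

open Finset

section aux

variable {n : ℕ}

/-- entry `(i, j)` of the symmetric sign matrix coded by `f` -/
noncomputable def ent (f : Sym2 (Fin n) → Bool) (i j : Fin n) : ℝ :=
  if f (s(i, j)) then 1 else -1

theorem ent_inj {f g : Sym2 (Fin n) → Bool} {i j : Fin n} (h : ent f i j = ent g i j) :
    f (s(i, j)) = g (s(i, j)) := by
  unfold ent at h
  cases hf : f (s(i, j)) <;> cases hg : g (s(i, j)) <;>
    simp only [hf, hg] at h <;> first | rfl | (exfalso; norm_num at h)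

/-- Among finitely many vectors of the space of functions on `T` one can pick at most
`T.card` of them spanning all of them. -/
theorem exists_rows (T : Finset (Fin n)) (ρ : Fin n → (↥T → ℝ)) :
    ∃ R : Finset (Fin n), R.card ≤ T.card ∧
      ∀ i, ρ i ∈ Submodule.span ℝ (ρ '' (R : Set (Fin n))) := by
  classical
  obtain ⟨b, hb_sub, hb_span, hb_li⟩ := exists_linearIndependent ℝ (Set.range ρ)
  have hfin : b.Finite := (Set.finite_range ρ).subset hb_sub
  have hcard : hfin.toFinset.card ≤ T.card := by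
    have h1 : LinearIndependent ℝ (fun x : ↥hfin.toFinset => (x : ↥T → ℝ)) := by
      have hinj : Function.Injective
          (fun x : ↥hfin.toFinset => (⟨x.1, hfin.mem_toFinset.mp x.2⟩ : b)) := by
        intro x y hxy
        apply Subtype.ext
        have h := congrArg (fun z : ↥b => (z : ↥T → ℝ)) hxy
        exact h
      exact hb_li.comp _ hinj
    have h2 := h1.finset_card_le_finrank
    rw [Module.finrank_fintype_fun_eq_card, Fintype.card_coe] at h2
    exact h2
  choose g hg using hb_sub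
  refine ⟨hfin.toFinset.attach.image (fun x => g (hfin.mem_toFinset.mp x.2)), ?_, ?_⟩
  · exact (Finset.card_image_le).trans (by rw [Finset.card_attach]; exact hcard)
  · intro i
    have hi : ρ i ∈ Submodule.span ℝ (Set.range ρ) := Submodule.subset_span ⟨i, rfl⟩
    rw [← hb_span] at hi
    refine Submodule.span_mono ?_ hi
    intro x hx
    refine ⟨g hx, ?_, hg hx⟩
    rw [Finset.mem_coe, Finset.mem_image]
    exact ⟨⟨x, hfin.mem_toFinset.mpr hx⟩, Finset.mem_attach _ _, rfl⟩

theorem ann_of_span (T : Finset (Fin n)) (ρ : Fin n → (↥T → ℝ)) (R : Finset (Fin n))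
    (u : Fin n → ℝ) (hR : ∀ r ∈ R, ∑ j : ↥T, ρ r j * u j = 0) {x : ↥T → ℝ}
    (hx : x ∈ Submodule.span ℝ (ρ '' (R : Set (Fin n)))) : ∑ j : ↥T, x j * u j = 0 := by
  induction hx using Submodule.span_induction with
  | mem y hy =>
    obtain ⟨r, hr, rfl⟩ := hy
    exact hR r hr
  | zero => simp
  | add y z _ _ hy hz =>
    simp only [Pi.add_apply, add_mul, Finset.sum_add_distrib, hy, hz, add_zero]
  | smul c y _ hy =>
    simp only [Pi.smul_apply, smul_eq_mul, mul_assoc, ← Finset.mul_sum, hy, mul_zero]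

open scoped Classical in
/-- the sign patterns counted for a fixed column set `T` and row set `R` -/
noncomputable def piece (T R : Finset (Fin n)) : Finset (Sym2 (Fin n) → Bool) :=
  Finset.univ.filter (fun f => ∃ v : Fin n → ℝ, (∀ j, v j ≠ 0 ↔ j ∈ T) ∧
    (∀ i, ∑ j ∈ T, ent f i j * v j = 0) ∧
    ∀ i, ∀ u : Fin n → ℝ, (∀ r ∈ R, ∑ j ∈ T, ent f r j * u j = 0) →
      ∑ j ∈ T, ent f i j * u j = 0)

theorem mem_piece {T R : Finset (Fin n)} {f : Sym2 (Fin n) → Bool} :
    f ∈ piece T R ↔ ∃ v : Fin n → ℝ, (∀ j, v j ≠ 0 ↔ j ∈ T) ∧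
    (∀ i, ∑ j ∈ T, ent f i j * v j = 0) ∧
    ∀ i, ∀ u : Fin n → ℝ, (∀ r ∈ R, ∑ j ∈ T, ent f r j * u j = 0) →
      ∑ j ∈ T, ent f i j * u j = 0 := by
  classical
  unfold piece
  rw [Finset.mem_filter]
  simp

theorem card_piece_le (T R : Finset (Fin n)) (hT : T.Nonempty) :
    (piece T R).card * 2 ^ (n - (T ∪ R).card) ≤ 2 ^ Fintype.card (Sym2 (Fin n)) := by
  classical
  obtain ⟨j1, hj1⟩ := hT
  set D : Finset (Sym2 (Fin n)) := ((T ∪ R)ᶜ).image (fun i => s(i, j1)) with hD
  have hDcard : D.card = n - (T ∪ R).card := by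
    rw [hD, Finset.card_image_of_injOn, Finset.card_compl, Fintype.card_fin]
    intro i hi i' hi' h
    rcases Sym2.eq_iff.mp h with ⟨h1, -⟩ | ⟨h1, h2⟩
    · exact h1
    · exfalso
      have hi2 : i ∉ T ∪ R := Finset.mem_compl.mp hi
      apply hi2
      rw [h1]
      exact Finset.mem_union_left _ hj1
  have hinj : Set.InjOn (fun (f : Sym2 (Fin n) → Bool) (x : ↥(Dᶜ)) => f x)
      (piece T R : Set (Sym2 (Fin n) → Bool)) := by
    intro f hf f' hf' hEq
    have key : ∀ x, x ∉ D → f x = f' x := fun x hx =>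
      congrFun hEq ⟨x, Finset.mem_compl.mpr hx⟩
    obtain ⟨v, hv, hAv, hann⟩ := mem_piece.mp hf
    obtain ⟨v', hv', hAv', -⟩ := mem_piece.mp hf'
    have entEq : ∀ i j, s(i, j) ∉ D → ent f i j = ent f' i j := by
      intro i j h
      unfold ent
      rw [key _ h]
    have st1 : ∀ r ∈ R, ∀ j ∈ T, s(r, j) ∉ D := by
      intro r hr j hj hmem
      rw [hD, Finset.mem_image] at hmem
      obtain ⟨i, hi, h⟩ := hmem
      have hi2 : i ∉ T ∪ R := Finset.mem_compl.mp hi
      rcases Sym2.eq_iff.mp h with ⟨h1, -⟩ | ⟨h1, -⟩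
      · exact hi2 (h1 ▸ Finset.mem_union_right _ hr)
      · exact hi2 (h1 ▸ Finset.mem_union_left _ hj)
    have st2 : ∀ r ∈ R, ∑ j ∈ T, ent f r j * v' j = 0 := by
      intro r hr
      rw [← hAv' r]
      exact Finset.sum_congr rfl (fun j hj => by rw [entEq r j (st1 r hr j hj)])
    have st3 : ∀ i, ∑ j ∈ T, ent f i j * v' j = 0 := fun i => hann i v' st2
    funext x
    by_cases hx : x ∈ D
    · obtain ⟨i, hi, rfl⟩ := Finset.mem_image.mp hx
      have hi2 : i ∉ T ∪ R := Finset.mem_compl.mp hi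
      apply ent_inj
      have e1 := st3 i
      have e2 := hAv' i
      rw [← Finset.add_sum_erase T _ hj1] at e1 e2
      have e3 : ∑ j ∈ T.erase j1, ent f i j * v' j = ∑ j ∈ T.erase j1, ent f' i j * v' j := by
        refine Finset.sum_congr rfl (fun j hj => ?_)
        have hjne : j ≠ j1 := Finset.ne_of_mem_erase hj
        have hjT : j ∈ T := Finset.mem_of_mem_erase hj
        have hnot : s(i, j) ∉ D := by
          intro hmem
          rw [hD, Finset.mem_image] at hmem
          obtain ⟨i', hi', h⟩ := hmem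
          have hi2' : i' ∉ T ∪ R := Finset.mem_compl.mp hi'
          rcases Sym2.eq_iff.mp h with ⟨-, h2⟩ | ⟨h1, -⟩
          · exact hjne h2.symm
          · exact hi2' (h1 ▸ Finset.mem_union_left _ hjT)
        rw [entEq i j hnot]
      have hv1 : v' j1 ≠ 0 := (hv' j1).mpr hj1
      have e4 : (ent f i j1 - ent f' i j1) * v' j1 = 0 := by
        rw [e3] at e1
        linarith
      rcases mul_eq_zero.mp e4 with h | h
      · linarith
      · exact absurd h hv1
    · exact key x hx
  have h1 : (piece T R).card ≤ (Finset.univ : Finset (↥(Dᶜ) → Bool)).card :=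
    Finset.card_le_card_of_injOn _ (fun _ _ => Finset.mem_univ _) hinj
  have h2 : (Finset.univ : Finset (↥(Dᶜ) → Bool)).card
      = 2 ^ (Fintype.card (Sym2 (Fin n)) - D.card) := by
    rw [Finset.card_univ, Fintype.card_fun, Fintype.card_bool, Fintype.card_coe,
      Finset.card_compl]
  have h3 : D.card ≤ Fintype.card (Sym2 (Fin n)) := Finset.card_le_univ D
  calc (piece T R).card * 2 ^ (n - (T ∪ R).card)
      = (piece T R).card * 2 ^ D.card := by rw [hDcard]
    _ ≤ 2 ^ (Fintype.card (Sym2 (Fin n)) - D.card) * 2 ^ D.card :=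
        Nat.mul_le_mul_right _ (h1.trans h2.le)
    _ = 2 ^ Fintype.card (Sym2 (Fin n)) := by
        rw [← pow_add, Nat.sub_add_cancel h3]

theorem cover (k : ℕ) (f : Sym2 (Fin n) → Bool) (v : Fin n → ℝ) (hv : v ≠ 0)
    (hk : (Function.support v).ncard ≤ k)
    (hA : (Matrix.of fun i j => if f s(i, j) then (1 : ℝ) else -1).mulVec v = 0) :
    ∃ T R : Finset (Fin n), T.Nonempty ∧ T.card ≤ k ∧ R.card ≤ k ∧ f ∈ piece T R := by
  classical
  set T : Finset (Fin n) := Finset.univ.filter (fun j => v j ≠ 0) with hT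
  have hmemT : ∀ j, j ∈ T ↔ v j ≠ 0 := by
    intro j
    rw [hT, Finset.mem_filter]
    simp
  have hTne : T.Nonempty := by
    by_contra h
    apply hv
    funext j
    by_contra hj
    exact h ⟨j, (hmemT j).mpr hj⟩
  have hTcard : T.card ≤ k := by
    have hsupp : Function.support v = (T : Set (Fin n)) := by
      ext j
      simp [hmemT]
    rw [hsupp, Set.ncard_coe_finset] at hk
    exact hk
  have hrow : ∀ i, ∑ j ∈ T, ent f i j * v j = 0 := by
    intro i
    have h := congrFun hA i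
    simp only [Matrix.mulVec, dotProduct, Matrix.of_apply, Pi.zero_apply] at h
    rw [← h]
    apply Finset.sum_subset (Finset.subset_univ T)
    intro j _ hj
    have hvj : v j = 0 := by
      by_contra hne
      exact hj ((hmemT j).mpr hne)
    rw [hvj, mul_zero]
  obtain ⟨R, hRcard, hRspan⟩ := exists_rows T (fun i (j : ↥T) => ent f i j)
  refine ⟨T, R, hTne, hTcard, hRcard.trans hTcard, mem_piece.mpr ⟨v, ?_, hrow, ?_⟩⟩
  · intro j
    exact (hmemT j).symm
  · intro i u hu
    have h := ann_of_span T (fun i (j : ↥T) => ent f i j) R u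
      (by
        intro r hr
        rw [Finset.sum_coe_sort T (fun j => ent f r j * u j)]
        exact hu r hr) (hRspan i)
    rw [← Finset.sum_coe_sort T (fun j => ent f i j * u j)]
    exact h

theorem sum_choose_le (n k : ℕ) : ∑ t ∈ Finset.range (k + 1), n.choose t ≤ (n + 1) ^ k := by
  induction k with
  | zero => simp
  | succ k ih =>
    rw [Finset.sum_range_succ]
    have h1 : n.choose (k + 1) ≤ n * (n + 1) ^ k := by
      calc n.choose (k + 1) ≤ n ^ (k + 1) := Nat.choose_le_pow n (k + 1)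
        _ = n * n ^ k := by ring
        _ ≤ n * (n + 1) ^ k := Nat.mul_le_mul_left _ (Nat.pow_le_pow_left (Nat.le_succ n) k)
    calc ∑ t ∈ Finset.range (k + 1), n.choose t + n.choose (k + 1)
        ≤ (n + 1) ^ k + n * (n + 1) ^ k := Nat.add_le_add ih h1
      _ = (n + 1) ^ (k + 1) := by ring

theorem card_small_sets (n k : ℕ) :
    ((Finset.univ : Finset (Finset (Fin n))).filter (fun T => T.card ≤ k)).card
      ≤ ∑ t ∈ Finset.range (k + 1), n.choose t := by
  classical
  have hsub : (Finset.univ : Finset (Finset (Fin n))).filter (fun T => T.card ≤ k)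
      ⊆ (Finset.range (k + 1)).biUnion
        (fun t => Finset.powersetCard t (Finset.univ : Finset (Fin n))) := by
    intro T hT
    rw [Finset.mem_filter] at hT
    rw [Finset.mem_biUnion]
    exact ⟨T.card, Finset.mem_range.mpr (Nat.lt_succ_of_le hT.2),
      Finset.mem_powersetCard_univ.mpr rfl⟩
  refine (Finset.card_le_card hsub).trans (Finset.card_biUnion_le.trans ?_)
  refine Finset.sum_le_sum (fun t _ => ?_)
  rw [Finset.card_powersetCard, Finset.card_univ, Fintype.card_fin]

end aux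

/-- **Sparse null vectors of symmetric random sign matrices.**  A function
`f : Sym2 (Fin n) → Bool` codes the symmetric `n × n` sign matrix with entries
`a i j = 1` if `f s(i, j)` and `-1` otherwise; the uniform distribution on such `f` is
exactly the model with independent uniform signs on and above the diagonal.  The fraction
of these matrices that have a nonzero null vector with at most `k` nonzero coordinates is
at most `(∑_{t ≤ k} C(n, t))^2 * 4^k / 2^n`, which is at most `(2n+2)^(2k) / 2^n`. -/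
theorem result (n k : ℕ) :
    (Set.ncard {f : Sym2 (Fin n) → Bool |
        ∃ v : Fin n → ℝ, v ≠ 0 ∧ (Function.support v).ncard ≤ k ∧
          (Matrix.of fun i j => if f s(i, j) then (1 : ℝ) else -1).mulVec v = 0} : ℝ)
      / Nat.card (Sym2 (Fin n) → Bool)
      ≤ (∑ t ∈ Finset.range (k + 1), (n.choose t : ℝ)) ^ 2 * 4 ^ k / 2 ^ n
    ∧ (∑ t ∈ Finset.range (k + 1), (n.choose t : ℝ)) ^ 2 * 4 ^ k / 2 ^ n
      ≤ (2 * (n : ℝ) + 2) ^ (2 * k) / 2 ^ n := by
  classical
  have hS : (∑ t ∈ Finset.range (k + 1), (n.choose t : ℝ)) ≤ ((n : ℝ) + 1) ^ k := by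
    have h := sum_choose_le n k
    have h' : ((∑ t ∈ Finset.range (k + 1), n.choose t : ℕ) : ℝ) ≤ (((n + 1) ^ k : ℕ) : ℝ) :=
      Nat.cast_le.mpr h
    push_cast at h'
    exact h'
  have hS0 : (0 : ℝ) ≤ ∑ t ∈ Finset.range (k + 1), (n.choose t : ℝ) :=
    Finset.sum_nonneg (fun t _ => Nat.cast_nonneg _)
  refine ⟨?_, ?_⟩
  · set Bad : Finset (Sym2 (Fin n) → Bool) := Finset.univ.filter (fun f =>
      ∃ v : Fin n → ℝ, v ≠ 0 ∧ (Function.support v).ncard ≤ k ∧
        (Matrix.of fun i j => if f s(i, j) then (1 : ℝ) else -1).mulVec v = 0) with hBad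
    have hset : {f : Sym2 (Fin n) → Bool |
        ∃ v : Fin n → ℝ, v ≠ 0 ∧ (Function.support v).ncard ≤ k ∧
          (Matrix.of fun i j => if f s(i, j) then (1 : ℝ) else -1).mulVec v = 0}
        = (Bad : Set (Sym2 (Fin n) → Bool)) := by
      ext f
      simp [hBad]
    rw [hset, Set.ncard_coe_finset]
    set P : Finset (Finset (Fin n)) :=
      (Finset.univ : Finset (Finset (Fin n))).filter (fun T => T.card ≤ k) with hP
    set N : ℕ := Fintype.card (Sym2 (Fin n)) with hN
    have hPcard : (P.card : ℝ) ≤ ∑ t ∈ Finset.range (k + 1), (n.choose t : ℝ) := by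
      have h := card_small_sets n k
      have h' : ((P.card : ℕ) : ℝ) ≤ ((∑ t ∈ Finset.range (k + 1), n.choose t : ℕ) : ℝ) :=
        Nat.cast_le.mpr h
      push_cast at h'
      exact h'
    have hcov : Bad ⊆ (P.filter (fun T => T.Nonempty)).biUnion
        (fun T => P.biUnion (fun R => piece T R)) := by
      intro f hf
      rw [hBad, Finset.mem_filter] at hf
      obtain ⟨v, hv, hk, hA⟩ := hf.2
      obtain ⟨T, R, hTne, hTk, hRk, hmem⟩ := cover k f v hv hk hA
      rw [Finset.mem_biUnion]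
      refine ⟨T, ?_, ?_⟩
      · rw [Finset.mem_filter, hP, Finset.mem_filter]
        exact ⟨⟨Finset.mem_univ _, hTk⟩, hTne⟩
      · rw [Finset.mem_biUnion]
        refine ⟨R, ?_, hmem⟩
        rw [hP, Finset.mem_filter]
        exact ⟨Finset.mem_univ _, hRk⟩
    have hpiece : ∀ T ∈ P.filter (fun T => T.Nonempty), ∀ R ∈ P,
        ((piece T R).card : ℝ) ≤ 2 ^ N * 4 ^ k / 2 ^ n := by
      intro T hT R hR
      rw [Finset.mem_filter, hP, Finset.mem_filter] at hT
      rw [hP, Finset.mem_filter] at hR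
      have h1 := card_piece_le T R hT.2
      have hu : (T ∪ R).card ≤ 2 * k := by
        have := Finset.card_union_le T R
        omega
      have h2 : ((piece T R).card : ℝ) * 2 ^ (n - (T ∪ R).card) ≤ 2 ^ N := by
        have h' : (((piece T R).card * 2 ^ (n - (T ∪ R).card) : ℕ) : ℝ)
            ≤ ((2 ^ N : ℕ) : ℝ) := Nat.cast_le.mpr h1
        push_cast at h'
        exact h'
      have h3 : (2 : ℝ) ^ n ≤ 4 ^ k * 2 ^ (n - (T ∪ R).card) := by
        have h4 : (4 : ℝ) ^ k = 2 ^ (2 * k) := by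
          rw [pow_mul]
          norm_num
        rw [h4, ← pow_add]
        apply pow_le_pow_right₀ (by norm_num)
        omega
      rw [le_div_iff₀ (by positivity)]
      have hc : (0 : ℝ) ≤ ((piece T R).card : ℝ) := Nat.cast_nonneg _
      calc ((piece T R).card : ℝ) * 2 ^ n
          ≤ ((piece T R).card : ℝ) * (4 ^ k * 2 ^ (n - (T ∪ R).card)) :=
            mul_le_mul_of_nonneg_left h3 hc
        _ = (((piece T R).card : ℝ) * 2 ^ (n - (T ∪ R).card)) * 4 ^ k := by ring
        _ ≤ 2 ^ N * 4 ^ k := mul_le_mul_of_nonneg_right h2 (by positivity)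
    have hBadcard : (Bad.card : ℝ) ≤
        (∑ t ∈ Finset.range (k + 1), (n.choose t : ℝ)) ^ 2 * (2 ^ N * 4 ^ k / 2 ^ n) := by
      have hM : (0 : ℝ) ≤ 2 ^ N * 4 ^ k / 2 ^ n := by positivity
      have h1 : (Bad.card : ℝ) ≤ ∑ T ∈ P.filter (fun T => T.Nonempty),
          ∑ R ∈ P, ((piece T R).card : ℝ) := by
        have h := (Finset.card_le_card hcov).trans Finset.card_biUnion_le
        have h2 : ∀ T ∈ P.filter (fun T => T.Nonempty),
            (P.biUnion (fun R => piece T R)).card ≤ ∑ R ∈ P, (piece T R).card :=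
          fun T _ => Finset.card_biUnion_le
        have h3 := h.trans (Finset.sum_le_sum h2)
        have h4 : ((Bad.card : ℕ) : ℝ) ≤ ((∑ T ∈ P.filter (fun T => T.Nonempty),
            ∑ R ∈ P, (piece T R).card : ℕ) : ℝ) := Nat.cast_le.mpr h3
        push_cast at h4
        exact h4
      have h2 : ∑ T ∈ P.filter (fun T => T.Nonempty), ∑ R ∈ P, ((piece T R).card : ℝ)
          ≤ ∑ T ∈ P.filter (fun T => T.Nonempty), ∑ R ∈ P, (2 ^ N * 4 ^ k / 2 ^ n : ℝ) :=
        Finset.sum_le_sum (fun T hT => Finset.sum_le_sum (fun R hR => hpiece T hT R hR))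
      have h3 : ∑ T ∈ P.filter (fun T => T.Nonempty), ∑ R ∈ P, (2 ^ N * 4 ^ k / 2 ^ n : ℝ)
          = ((P.filter (fun T => T.Nonempty)).card : ℝ) * ((P.card : ℝ)
            * (2 ^ N * 4 ^ k / 2 ^ n)) := by
        simp only [Finset.sum_const, nsmul_eq_mul]
      have h4 : ((P.filter (fun T => T.Nonempty)).card : ℝ) ≤ (P.card : ℝ) :=
        Nat.cast_le.mpr (Finset.card_le_card (Finset.filter_subset _ _))
      have hP0 : (0 : ℝ) ≤ (P.card : ℝ) := Nat.cast_nonneg _
      calc (Bad.card : ℝ) ≤ ((P.filter (fun T => T.Nonempty)).card : ℝ) * ((P.card : ℝ)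
            * (2 ^ N * 4 ^ k / 2 ^ n)) := by
            rw [← h3]
            exact h1.trans h2
        _ ≤ (P.card : ℝ) * ((P.card : ℝ) * (2 ^ N * 4 ^ k / 2 ^ n)) :=
            mul_le_mul_of_nonneg_right h4 (mul_nonneg hP0 hM)
        _ = (P.card : ℝ) ^ 2 * (2 ^ N * 4 ^ k / 2 ^ n) := by ring
        _ ≤ (∑ t ∈ Finset.range (k + 1), (n.choose t : ℝ)) ^ 2 * (2 ^ N * 4 ^ k / 2 ^ n) :=
            mul_le_mul_of_nonneg_right (pow_le_pow_left₀ hP0 hPcard 2) hM
    have hcardN : (Nat.card (Sym2 (Fin n) → Bool) : ℝ) = 2 ^ N := by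
      rw [Nat.card_eq_fintype_card, Fintype.card_fun, Fintype.card_bool]
      push_cast
      rfl
    rw [hcardN, div_le_iff₀ (by positivity)]
    calc (Bad.card : ℝ)
        ≤ (∑ t ∈ Finset.range (k + 1), (n.choose t : ℝ)) ^ 2 * (2 ^ N * 4 ^ k / 2 ^ n) :=
          hBadcard
      _ = (∑ t ∈ Finset.range (k + 1), (n.choose t : ℝ)) ^ 2 * 4 ^ k / 2 ^ n * 2 ^ N := by
          ring
  · apply div_le_div_of_nonneg_right _ (by positivity)
    have h1 : (∑ t ∈ Finset.range (k + 1), (n.choose t : ℝ)) ^ 2 ≤ (((n : ℝ) + 1) ^ k) ^ 2 :=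
      pow_le_pow_left₀ hS0 hS 2
    calc (∑ t ∈ Finset.range (k + 1), (n.choose t : ℝ)) ^ 2 * 4 ^ k
        ≤ (((n : ℝ) + 1) ^ k) ^ 2 * 4 ^ k := mul_le_mul_of_nonneg_right h1 (by positivity)
      _ = (2 * (n : ℝ) + 2) ^ (2 * k) := by
          have e : (2 * (n : ℝ) + 2) ^ 2 = ((n : ℝ) + 1) ^ 2 * 4 := by ring
          rw [pow_mul, e, mul_pow, pow_right_comm]

end Vale.Agent.Results.P160.SparseKernel
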