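import Vale.Agent.Results.P160.SparseKernelSharp

set_option autoImplicit false

namespace Vale.Agent.Results.P160.SparseKernelHalf

open Finset
open Vale.Agent.Results.P160.SparseKernel
open Vale.Agent.Results.P160.SparseKernelLO

section aux

/-- Erdős' Littlewood–Offord bound via Sperner's theorem: at most `C(m, m/2)` sign patterns
annihilate a vector with `m` nonzero coordinates. -/
theorem lo_sperner {ι : Type*} [Fintype ι] [DecidableEq ι] (w : ι → ℝ) (hw : ∀ j, w j ≠ 0) :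
    (Finset.univ.filter (fun ε : ι → Bool => ∑ j, sg (ε j) * w j = 0)).card
      ≤ (Fintype.card ι).choose (Fintype.card ι / 2) := by
  classical
  set Z : Finset (ι → Bool) :=
    Finset.univ.filter (fun ε : ι → Bool => ∑ j, sg (ε j) * w j = 0) with hZ
  let φ : (ι → Bool) → Finset ι :=
    fun ε => Finset.univ.filter (fun j => (ε j = true ↔ 0 < w j))
  have hterm : ∀ (ε : ι → Bool) (j : ι),
      sg (ε j) * w j = if j ∈ φ ε then |w j| else -|w j| := by
    intro ε j
    simp only [φ, Finset.mem_filter, Finset.mem_univ, true_and]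
    rcases lt_or_gt_of_ne (hw j) with h | h
    · have h0 : ¬ (0 < w j) := not_lt.mpr h.le
      cases hε : ε j
      · simp [sg, h0, abs_of_neg h]
      · simp [sg, h0, abs_of_neg h]
    · cases hε : ε j
      · simp [sg, h, abs_of_pos h]
      · simp [sg, h, abs_of_pos h]
  have hsum : ∀ ε : ι → Bool,
      ∑ j, sg (ε j) * w j = 2 * ∑ j ∈ φ ε, |w j| - ∑ j, |w j| := by
    intro ε
    have h1 : ∀ j, sg (ε j) * w j = (if j ∈ φ ε then 2 * |w j| else 0) - |w j| := by
      intro j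
      rw [hterm]
      split_ifs <;> ring
    rw [Finset.sum_congr rfl (fun j _ => h1 j), Finset.sum_sub_distrib, Finset.sum_ite_mem,
      Finset.univ_inter, Finset.mul_sum]
  have hφinj : Function.Injective φ := by
    intro ε ε' h
    funext j
    have hj : (j ∈ φ ε) ↔ (j ∈ φ ε') := by rw [h]
    simp only [φ, Finset.mem_filter, Finset.mem_univ, true_and] at hj
    by_cases hp : 0 < w j <;> cases h1 : ε j <;> cases h2 : ε' j <;> simp_all
  have hanti : IsAntichain (· ⊆ ·) ((Z.image φ : Finset (Finset ι)) : Set (Finset ι)) := by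
    intro A hA B hB hAB hsub
    rw [Finset.mem_coe, Finset.mem_image] at hA hB
    obtain ⟨ε, hε, rfl⟩ := hA
    obtain ⟨ε', hε', rfl⟩ := hB
    have e1 : ∑ j, sg (ε j) * w j = 0 := (Finset.mem_filter.mp hε).2
    have e2 : ∑ j, sg (ε' j) * w j = 0 := (Finset.mem_filter.mp hε').2
    rw [hsum] at e1 e2
    have heq : ∑ j ∈ φ ε, |w j| = ∑ j ∈ φ ε', |w j| := by linarith
    have hss : φ ε ⊂ φ ε' := Finset.ssubset_iff_subset_ne.mpr ⟨hsub, hAB⟩
    obtain ⟨i, hi, hi'⟩ := Finset.exists_of_ssubset hss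
    have hlt : ∑ j ∈ φ ε, |w j| < ∑ j ∈ φ ε', |w j| :=
      Finset.sum_lt_sum_of_subset hsub hi hi' (abs_pos.mpr (hw i)) (fun j _ _ => abs_nonneg _)
    exact absurd heq (ne_of_lt hlt)
  have hcard : Z.card = (Z.image φ).card := (Finset.card_image_of_injective Z hφinj).symm
  rw [hcard]
  exact hanti.sperner

variable {n : ℕ}

/-- The count for a fixed column set `T` and a row set `R`: each row outside `T ∪ R` costs a
factor `C(t, t/2) / 2^t`, `t = |T|`. -/
theorem card_piece_gen (T R : Finset (Fin n)) :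
    (piece T R).card * 2 ^ ((n - (T ∪ R).card) * T.card)
      ≤ 2 ^ Fintype.card (Sym2 (Fin n))
        * (T.card.choose (T.card / 2)) ^ (n - (T ∪ R).card) := by
  classical
  set I : Finset (Fin n) := (T ∪ R)ᶜ with hI
  have hIcard : I.card = n - (T ∪ R).card := by
    rw [hI, Finset.card_compl, Fintype.card_fin]
  set m : ℕ := n - (T ∪ R).card with hm
  set D : Finset (Sym2 (Fin n)) := (I ×ˢ T).image (fun x => s(x.1, x.2)) with hD
  have hInotT : ∀ i ∈ I, i ∉ T := by
    intro i hi hiT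
    exact (Finset.mem_compl.mp hi) (Finset.mem_union_left _ hiT)
  have hInotR : ∀ i ∈ I, i ∉ R := by
    intro i hi hiR
    exact (Finset.mem_compl.mp hi) (Finset.mem_union_right _ hiR)
  have hDcard : D.card = m * T.card := by
    rw [hD, Finset.card_image_of_injOn, Finset.card_product, hIcard]
    intro x hx y hy h
    have hx' := Finset.mem_product.mp hx
    have hy' := Finset.mem_product.mp hy
    rcases Sym2.eq_iff.mp h with ⟨h1, h2⟩ | ⟨h1, h2⟩
    · exact Prod.ext h1 h2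
    · exfalso
      exact hInotT x.1 hx'.1 (h1 ▸ hy'.2)
  have hRT : ∀ r ∈ R, ∀ j ∈ T, s(r, j) ∉ D := by
    intro r hr j hj hmem
    rw [hD, Finset.mem_image] at hmem
    obtain ⟨x, hx, h⟩ := hmem
    have hx' := Finset.mem_product.mp hx
    rcases Sym2.eq_iff.mp h with ⟨h1, -⟩ | ⟨h1, -⟩
    · exact hInotR x.1 hx'.1 (h1 ▸ hr)
    · exact hInotT x.1 hx'.1 (h1 ▸ hj)
  set N : ℕ := Fintype.card (Sym2 (Fin n)) with hN
  have hDle : D.card ≤ N := Finset.card_le_univ D
  set ρ : (Sym2 (Fin n) → Bool) → (↥(Dᶜ) → Bool) := fun f x => f x with hρ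
  have himg : ((piece T R).image ρ).card ≤ 2 ^ (N - D.card) := by
    refine (Finset.card_le_univ _).trans ?_
    rw [Fintype.card_fun, Fintype.card_bool, Fintype.card_coe, Finset.card_compl]
  set C : ℕ := T.card.choose (T.card / 2) with hC
  have hfib : ∀ a ∈ (piece T R).image ρ,
      ((piece T R).filter (fun f => ρ f = a)).card ≤ C ^ m := by
    intro a ha
    obtain ⟨f0, hf0, hf0a⟩ := Finset.mem_image.mp ha
    obtain ⟨v0, hv0, hAv0, -⟩ := mem_piece.mp hf0
    set F : Finset (Sym2 (Fin n) → Bool) := (piece T R).filter (fun f => ρ f = a) with hF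
    set Z : Finset (↥T → Bool) :=
      Finset.univ.filter (fun ε : ↥T → Bool => ∑ j : ↥T, sg (ε j) * v0 j = 0) with hZ
    have hZle : Z.card ≤ C := by
      have h := lo_sperner (ι := ↥T) (fun j : ↥T => v0 j) (fun j => (hv0 j).mpr j.2)
      rw [Fintype.card_coe] at h
      exact h
    have key : ∀ f ∈ F, ∀ x, x ∉ D → f x = f0 x := by
      intro f hf x hx
      have hfa := (Finset.mem_filter.mp hf).2
      have h1 := congrFun hfa ⟨x, Finset.mem_compl.mpr hx⟩
      have h2 := congrFun hf0a ⟨x, Finset.mem_compl.mpr hx⟩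
      simp only [hρ] at h1 h2
      rw [h1, h2]
    have hrows : ∀ f ∈ F, ∀ i, ∑ j ∈ T, ent f i j * v0 j = 0 := by
      intro f hf i
      obtain ⟨v, -, -, hann⟩ := mem_piece.mp (Finset.mem_filter.mp hf).1
      apply hann i v0
      intro r hr
      rw [← hAv0 r]
      refine Finset.sum_congr rfl (fun j hj => ?_)
      have : ent f r j = ent f0 r j := by
        unfold ent
        rw [key f hf _ (hRT r hr j hj)]
      rw [this]
    set μ : (Sym2 (Fin n) → Bool) → (↥I → ↥T → Bool) :=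
      fun f i j => f s(i.1, j.1) with hμ
    have hmaps : ∀ f ∈ F, μ f ∈ Fintype.piFinset (fun _ : ↥I => Z) := by
      intro f hf
      rw [Fintype.mem_piFinset]
      intro i
      rw [hZ, Finset.mem_filter]
      refine ⟨Finset.mem_univ _, ?_⟩
      have h := hrows f hf i.1
      rw [← Finset.sum_coe_sort T (fun j => ent f i.1 j * v0 j)] at h
      exact h
    have hinj : Set.InjOn μ (F : Set (Sym2 (Fin n) → Bool)) := by
      intro f hf f' hf' hEq
      funext x
      by_cases hx : x ∈ D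
      · rw [hD, Finset.mem_image] at hx
        obtain ⟨y, hy, rfl⟩ := hx
        have hy' := Finset.mem_product.mp hy
        exact congrFun (congrFun hEq ⟨y.1, hy'.1⟩) ⟨y.2, hy'.2⟩
      · rw [key f hf x hx, key f' hf' x hx]
    have hFcard : F.card ≤ Z.card ^ m := by
      have h1 := Finset.card_le_card_of_injOn μ hmaps hinj
      rw [Fintype.card_piFinset, Finset.prod_const, Finset.card_univ, Fintype.card_coe,
        hIcard] at h1
      exact h1
    exact hFcard.trans (Nat.pow_le_pow_left hZle m)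
  have hsum : (piece T R).card
      = ∑ a ∈ (piece T R).image ρ, ((piece T R).filter (fun f => ρ f = a)).card :=
    Finset.card_eq_sum_card_image ρ (piece T R)
  have h1 : (piece T R).card ≤ 2 ^ (N - D.card) * C ^ m := by
    calc (piece T R).card
        = ∑ a ∈ (piece T R).image ρ, ((piece T R).filter (fun f => ρ f = a)).card := hsum
      _ ≤ ∑ _a ∈ (piece T R).image ρ, C ^ m := Finset.sum_le_sum hfib
      _ = ((piece T R).image ρ).card * C ^ m := by rw [Finset.sum_const, smul_eq_mul]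
      _ ≤ 2 ^ (N - D.card) * C ^ m := Nat.mul_le_mul_right _ himg
  calc (piece T R).card * 2 ^ (m * T.card)
      ≤ (2 ^ (N - D.card) * C ^ m) * 2 ^ (m * T.card) := Nat.mul_le_mul_right _ h1
    _ = (2 ^ (N - D.card) * 2 ^ D.card) * C ^ m := by rw [hDcard]; ring
    _ = 2 ^ N * C ^ m := by rw [← pow_add, Nat.sub_add_cancel hDle]

/-- the Littlewood–Offord ratio `C(t, t/2) / 2^t` -/
noncomputable def rho (t : ℕ) : ℝ := (t.choose (t / 2) : ℝ) / 2 ^ t

theorem rho_pos (t : ℕ) : 0 < rho t := by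
  unfold rho
  have h : 0 < t.choose (t / 2) := Nat.choose_pos (Nat.div_le_self t 2)
  have h' : (0 : ℝ) < (t.choose (t / 2) : ℝ) := by exact_mod_cast h
  positivity

theorem rho_le_one (t : ℕ) : rho t ≤ 1 := by
  unfold rho
  rw [div_le_one (by positivity)]
  have h := Nat.choose_le_two_pow t (t / 2)
  have h' : ((t.choose (t / 2) : ℕ) : ℝ) ≤ ((2 ^ t : ℕ) : ℝ) := Nat.cast_le.mpr h
  push_cast at h'
  exact h'

theorem choose_mid_succ (t : ℕ) : (t + 1).choose ((t + 1) / 2) ≤ 2 * t.choose (t / 2) := by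
  rcases Nat.eq_zero_or_pos ((t + 1) / 2) with h | h
  · rw [h, Nat.choose_zero_right]
    have := Nat.choose_pos (Nat.div_le_self t 2)
    omega
  · obtain ⟨j, hj⟩ : ∃ j, (t + 1) / 2 = j + 1 := ⟨(t + 1) / 2 - 1, by omega⟩
    rw [hj, Nat.choose_succ_succ']
    have h1 := Nat.choose_le_middle j t
    have h2 := Nat.choose_le_middle (j + 1) t
    omega

theorem rho_succ_le (t : ℕ) : rho (t + 1) ≤ rho t := by
  unfold rho
  rw [div_le_div_iff₀ (by positivity) (by positivity)]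
  have h := choose_mid_succ t
  have h' : (((t + 1).choose ((t + 1) / 2) : ℕ) : ℝ) ≤ ((2 * t.choose (t / 2) : ℕ) : ℝ) :=
    Nat.cast_le.mpr h
  push_cast at h'
  calc ((t + 1).choose ((t + 1) / 2) : ℝ) * 2 ^ t
      ≤ (2 * (t.choose (t / 2) : ℝ)) * 2 ^ t := mul_le_mul_of_nonneg_right h' (by positivity)
    _ = (t.choose (t / 2) : ℝ) * 2 ^ (t + 1) := by ring

theorem rho_anti {s t : ℕ} (h : s ≤ t) : rho t ≤ rho s :=
  antitone_nat_of_succ_le rho_succ_le h

theorem cb_sq (m : ℕ) : (Nat.centralBinom m) ^ 2 * (2 * m + 1) ≤ 16 ^ m := by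
  induction m with
  | zero => simp
  | succ m ih =>
    have h := Nat.succ_mul_centralBinom_succ m
    have e : (Nat.centralBinom (m + 1)) ^ 2 * (m + 1) ^ 2
        = (2 * (2 * m + 1) * Nat.centralBinom m) ^ 2 := by
      rw [← h]
      ring
    have key : ((Nat.centralBinom (m + 1)) ^ 2 * (2 * (m + 1) + 1)) * (m + 1) ^ 2
        ≤ 16 ^ (m + 1) * (m + 1) ^ 2 := by
      calc ((Nat.centralBinom (m + 1)) ^ 2 * (2 * (m + 1) + 1)) * (m + 1) ^ 2
          = ((Nat.centralBinom (m + 1)) ^ 2 * (m + 1) ^ 2) * (2 * m + 3) := by ring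
        _ = (2 * (2 * m + 1) * Nat.centralBinom m) ^ 2 * (2 * m + 3) := by rw [e]
        _ = (4 * (2 * m + 1) * (2 * m + 3)) * ((Nat.centralBinom m) ^ 2 * (2 * m + 1)) := by
            ring
        _ ≤ (4 * (2 * m + 1) * (2 * m + 3)) * 16 ^ m := Nat.mul_le_mul_left _ ih
        _ ≤ (16 * (m + 1) ^ 2) * 16 ^ m := Nat.mul_le_mul_right _ (by nlinarith)
        _ = 16 ^ (m + 1) * (m + 1) ^ 2 := by ring
    exact Nat.le_of_mul_le_mul_right key (by positivity)

theorem rho_even_sq (m : ℕ) : rho (2 * m) ^ 2 ≤ 1 / (2 * (m : ℝ) + 1) := by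
  unfold rho
  have hdiv : 2 * m / 2 = m := Nat.mul_div_cancel_left m (by norm_num)
  rw [hdiv]
  have h := cb_sq m
  have h' : (((Nat.centralBinom m) ^ 2 * (2 * m + 1) : ℕ) : ℝ) ≤ ((16 ^ m : ℕ) : ℝ) :=
    Nat.cast_le.mpr h
  push_cast at h'
  have hcb : ((2 * m).choose m : ℝ) = (Nat.centralBinom m : ℝ) := rfl
  rw [hcb, div_pow, div_le_div_iff₀ (by positivity) (by positivity), one_mul]
  have e16 : ((2 : ℝ) ^ (2 * m)) ^ 2 = 16 ^ m := by
    rw [← pow_mul, mul_comm (2 * m) 2, ← mul_assoc, pow_mul]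
    norm_num
  rw [e16]
  exact h'

theorem exists_rho_le (η : ℝ) (hη : 0 < η) : ∃ s : ℕ, 3 ≤ s ∧ rho s ≤ η := by
  obtain ⟨m, hm⟩ := exists_nat_gt (1 / η ^ 2)
  refine ⟨2 * m + 3, by omega, ?_⟩
  have h1 : rho (2 * m + 3) ≤ rho (2 * m) := rho_anti (by omega)
  have h2 := rho_even_sq m
  have hpos := rho_pos (2 * m)
  have hη2 : 0 < η ^ 2 := by positivity
  have h3 : 1 / (2 * (m : ℝ) + 1) ≤ η ^ 2 := by
    rw [div_le_iff₀ (by positivity)]
    have : 1 / η ^ 2 < (m : ℝ) := hm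
    rw [div_lt_iff₀ hη2] at this
    nlinarith
  have h4 : rho (2 * m) ^ 2 ≤ η ^ 2 := h2.trans h3
  have h5 : rho (2 * m) ≤ η := by
    by_contra hcon
    rw [not_le] at hcon
    have : η ^ 2 < rho (2 * m) ^ 2 := pow_lt_pow_left₀ hcon hη.le (by norm_num)
    linarith
  exact h1.trans h5

variable {n : ℕ}

theorem piece_real (T R : Finset (Fin n)) :
    ((piece T R).card : ℝ)
      ≤ 2 ^ Fintype.card (Sym2 (Fin n)) * rho T.card ^ (n - (T ∪ R).card) := by
  have h := card_piece_gen T R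
  have h' : (((piece T R).card * 2 ^ ((n - (T ∪ R).card) * T.card) : ℕ) : ℝ)
      ≤ ((2 ^ Fintype.card (Sym2 (Fin n))
        * (T.card.choose (T.card / 2)) ^ (n - (T ∪ R).card) : ℕ) : ℝ) := Nat.cast_le.mpr h
  push_cast at h'
  unfold rho
  rw [div_pow, mul_div_assoc', le_div_iff₀ (by positivity), ← pow_mul, mul_comm T.card]
  exact h'

theorem cover_s (s k : ℕ) (f : Sym2 (Fin n) → Bool) (v : Fin n → ℝ)
    (hs : s ≤ (Function.support v).ncard) (hk : (Function.support v).ncard ≤ k)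
    (hA : (Matrix.of fun i j => if f s(i, j) then (1 : ℝ) else -1).mulVec v = 0) :
    ∃ T R : Finset (Fin n), s ≤ T.card ∧ T.card ≤ k ∧ R.card ≤ k ∧ f ∈ piece T R := by
  classical
  set T : Finset (Fin n) := Finset.univ.filter (fun j => v j ≠ 0) with hT
  have hmemT : ∀ j, j ∈ T ↔ v j ≠ 0 := by
    intro j
    rw [hT, Finset.mem_filter]
    simp
  have hsupp : Function.support v = (T : Set (Fin n)) := by
    ext j
    simp [hmemT]
  rw [hsupp, Set.ncard_coe_finset] at hk hs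
  have hrow : ∀ i, ∑ j ∈ T, ent f i j * v j = 0 := by
    intro i
    have h := congrFun hA i
    simp only [Matrix.mulVec, dotProduct, Matrix.of_apply, Pi.zero_apply] at h
    rw [← h]
    apply Finset.sum_subset (Finset.subset_univ T)
    intro j _ hj
    have hvj : v j = 0 := by
      by_contra hne
      exact hj ((hmemT j).mpr hne)
    rw [hvj, mul_zero]
  obtain ⟨R, hRcard, hRspan⟩ := exists_rows T (fun i (j : ↥T) => ent f i j)
  refine ⟨T, R, hs, hk, hRcard.trans hk, mem_piece.mpr ⟨v, ?_, hrow, ?_⟩⟩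
  · intro j
    exact (hmemT j).symm
  · intro i u hu
    have h := ann_of_span T (fun i (j : ↥T) => ent f i j) R u
      (by
        intro r hr
        rw [Finset.sum_coe_sort T (fun j => ent f r j * u j)]
        exact hu r hr) (hRspan i)
    rw [← Finset.sum_coe_sort T (fun j => ent f i j * u j)]
    exact h

/-- Null vectors with at least `s` and at most `k` nonzero coordinates: each of the at least
`n - 2k` free rows costs the Littlewood–Offord ratio `rho s`. -/
theorem gen_bound (n s k : ℕ) :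
    (Set.ncard {f : Sym2 (Fin n) → Bool |
        ∃ v : Fin n → ℝ, s ≤ (Function.support v).ncard ∧ (Function.support v).ncard ≤ k ∧
          (Matrix.of fun i j => if f s(i, j) then (1 : ℝ) else -1).mulVec v = 0} : ℝ)
      / Nat.card (Sym2 (Fin n) → Bool)
      ≤ (∑ t ∈ Finset.range (k + 1), (n.choose t : ℝ)) ^ 2 * rho s ^ (n - 2 * k) := by
  classical
  set Bad : Finset (Sym2 (Fin n) → Bool) := Finset.univ.filter (fun f =>
    ∃ v : Fin n → ℝ, s ≤ (Function.support v).ncard ∧ (Function.support v).ncard ≤ k ∧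
      (Matrix.of fun i j => if f s(i, j) then (1 : ℝ) else -1).mulVec v = 0) with hBad
  have hset : {f : Sym2 (Fin n) → Bool |
      ∃ v : Fin n → ℝ, s ≤ (Function.support v).ncard ∧ (Function.support v).ncard ≤ k ∧
        (Matrix.of fun i j => if f s(i, j) then (1 : ℝ) else -1).mulVec v = 0}
      = (Bad : Set (Sym2 (Fin n) → Bool)) := by
    ext f
    simp [hBad]
  rw [hset, Set.ncard_coe_finset]
  set P : Finset (Finset (Fin n)) :=
    (Finset.univ : Finset (Finset (Fin n))).filter (fun T => T.card ≤ k) with hP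
  set N : ℕ := Fintype.card (Sym2 (Fin n)) with hN
  set M : ℝ := 2 ^ N * rho s ^ (n - 2 * k) with hM
  have hρ0 : 0 < rho s := rho_pos s
  have hM0 : (0 : ℝ) ≤ M := by positivity
  have hPcard : (P.card : ℝ) ≤ ∑ t ∈ Finset.range (k + 1), (n.choose t : ℝ) := by
    have h := card_small_sets n k
    have h' : ((P.card : ℕ) : ℝ) ≤ ((∑ t ∈ Finset.range (k + 1), n.choose t : ℕ) : ℝ) :=
      Nat.cast_le.mpr h
    push_cast at h'
    exact h'
  have hcov : Bad ⊆ (P.filter (fun T => s ≤ T.card)).biUnion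
      (fun T => P.biUnion (fun R => piece T R)) := by
    intro f hf
    rw [hBad, Finset.mem_filter] at hf
    obtain ⟨v, hs, hk, hA⟩ := hf.2
    obtain ⟨T, R, hTs, hTk, hRk, hmem⟩ := cover_s s k f v hs hk hA
    rw [Finset.mem_biUnion]
    refine ⟨T, ?_, ?_⟩
    · rw [Finset.mem_filter, hP, Finset.mem_filter]
      exact ⟨⟨Finset.mem_univ _, hTk⟩, hTs⟩
    · rw [Finset.mem_biUnion]
      refine ⟨R, ?_, hmem⟩
      rw [hP, Finset.mem_filter]
      exact ⟨Finset.mem_univ _, hRk⟩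
  have hpiece : ∀ T ∈ P.filter (fun T => s ≤ T.card), ∀ R ∈ P,
      ((piece T R).card : ℝ) ≤ M := by
    intro T hT R hR
    rw [Finset.mem_filter, hP, Finset.mem_filter] at hT
    rw [hP, Finset.mem_filter] at hR
    have h1 := piece_real T R
    have hu : (T ∪ R).card ≤ 2 * k := by
      have := Finset.card_union_le T R
      omega
    have hle : n - 2 * k ≤ n - (T ∪ R).card := by omega
    have h2 : rho T.card ^ (n - (T ∪ R).card) ≤ rho s ^ (n - (T ∪ R).card) :=
      pow_le_pow_left₀ (rho_pos _).le (rho_anti hT.2) _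
    have h3 : rho s ^ (n - (T ∪ R).card) ≤ rho s ^ (n - 2 * k) :=
      pow_le_pow_of_le_one hρ0.le (rho_le_one s) hle
    calc ((piece T R).card : ℝ) ≤ 2 ^ N * rho T.card ^ (n - (T ∪ R).card) := h1
      _ ≤ 2 ^ N * rho s ^ (n - 2 * k) :=
          mul_le_mul_of_nonneg_left (h2.trans h3) (by positivity)
  have hBadcard : (Bad.card : ℝ) ≤
      (∑ t ∈ Finset.range (k + 1), (n.choose t : ℝ)) ^ 2 * M := by
    have h1 : (Bad.card : ℝ) ≤ ∑ T ∈ P.filter (fun T => s ≤ T.card),
        ∑ R ∈ P, ((piece T R).card : ℝ) := by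
      have h := (Finset.card_le_card hcov).trans Finset.card_biUnion_le
      have h2 : ∀ T ∈ P.filter (fun T => s ≤ T.card),
          (P.biUnion (fun R => piece T R)).card ≤ ∑ R ∈ P, (piece T R).card :=
        fun T _ => Finset.card_biUnion_le
      have h3 := h.trans (Finset.sum_le_sum h2)
      have h4 : ((Bad.card : ℕ) : ℝ) ≤ ((∑ T ∈ P.filter (fun T => s ≤ T.card),
          ∑ R ∈ P, (piece T R).card : ℕ) : ℝ) := Nat.cast_le.mpr h3
      push_cast at h4
      exact h4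
    have h2 : ∑ T ∈ P.filter (fun T => s ≤ T.card), ∑ R ∈ P, ((piece T R).card : ℝ)
        ≤ ∑ T ∈ P.filter (fun T => s ≤ T.card), ∑ R ∈ P, M :=
      Finset.sum_le_sum (fun T hT => Finset.sum_le_sum (fun R hR => hpiece T hT R hR))
    have h3 : ∑ T ∈ P.filter (fun T => s ≤ T.card), ∑ R ∈ P, M
        = ((P.filter (fun T => s ≤ T.card)).card : ℝ) * ((P.card : ℝ) * M) := by
      simp only [Finset.sum_const, nsmul_eq_mul]
    have h4 : ((P.filter (fun T => s ≤ T.card)).card : ℝ) ≤ (P.card : ℝ) :=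
      Nat.cast_le.mpr (Finset.card_le_card (Finset.filter_subset _ _))
    have hP0 : (0 : ℝ) ≤ (P.card : ℝ) := Nat.cast_nonneg _
    calc (Bad.card : ℝ) ≤ ((P.filter (fun T => s ≤ T.card)).card : ℝ) * ((P.card : ℝ) * M) := by
          rw [← h3]
          exact h1.trans h2
      _ ≤ (P.card : ℝ) * ((P.card : ℝ) * M) :=
          mul_le_mul_of_nonneg_right h4 (mul_nonneg hP0 hM0)
      _ = (P.card : ℝ) ^ 2 * M := by ring
      _ ≤ (∑ t ∈ Finset.range (k + 1), (n.choose t : ℝ)) ^ 2 * M :=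
          mul_le_mul_of_nonneg_right (pow_le_pow_left₀ hP0 hPcard 2) hM0
  have hcardN : (Nat.card (Sym2 (Fin n) → Bool) : ℝ) = 2 ^ N := by
    rw [Nat.card_eq_fintype_card, Fintype.card_fun, Fintype.card_bool]
    push_cast
    rfl
  rw [hcardN, div_le_iff₀ (by positivity)]
  calc (Bad.card : ℝ)
      ≤ (∑ t ∈ Finset.range (k + 1), (n.choose t : ℝ)) ^ 2 * M := hBadcard
    _ = (∑ t ∈ Finset.range (k + 1), (n.choose t : ℝ)) ^ 2 * rho s ^ (n - 2 * k) * 2 ^ N := by
        rw [hM]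
        ring

/-- the combined upper bound: supports of size at most 2, between 3 and `s`, and between `s`
and `k` -/
theorem upper_combined (n k s : ℕ) :
    (Set.ncard {f : Sym2 (Fin n) → Bool |
        ∃ v : Fin n → ℝ, v ≠ 0 ∧ (Function.support v).ncard ≤ k ∧
          (Matrix.of fun i j => if f s(i, j) then (1 : ℝ) else -1).mulVec v = 0} : ℝ)
      / Nat.card (Sym2 (Fin n) → Bool)
      ≤ (n : ℝ) * ((n : ℝ) - 1) / 2 ^ n + (3 * (n : ℝ) + 3) ^ (2 * s) * (3 / 8) ^ n
        + (∑ t ∈ Finset.range (k + 1), (n.choose t : ℝ)) ^ 2 * rho s ^ (n - 2 * k) := by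
  classical
  set U : Finset (Sym2 (Fin n) → Bool) :=
    ((Finset.univ : Finset (Fin n)).offDiag).biUnion SparseKernelSharp.pairEv with hU
  have hupp := SparseKernelSharp.union_upper_real n
  rw [← hU] at hupp
  set Sk : Set (Sym2 (Fin n) → Bool) := {f : Sym2 (Fin n) → Bool |
      ∃ v : Fin n → ℝ, v ≠ 0 ∧ (Function.support v).ncard ≤ k ∧
        (Matrix.of fun i j => if f s(i, j) then (1 : ℝ) else -1).mulVec v = 0} with hSk
  set S3 : Set (Sym2 (Fin n) → Bool) := {f : Sym2 (Fin n) → Bool |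
      ∃ v : Fin n → ℝ, 3 ≤ (Function.support v).ncard ∧ (Function.support v).ncard ≤ s ∧
        (Matrix.of fun i j => if f s(i, j) then (1 : ℝ) else -1).mulVec v = 0} with hS3
  set Ss : Set (Sym2 (Fin n) → Bool) := {f : Sym2 (Fin n) → Bool |
      ∃ v : Fin n → ℝ, s ≤ (Function.support v).ncard ∧ (Function.support v).ncard ≤ k ∧
        (Matrix.of fun i j => if f s(i, j) then (1 : ℝ) else -1).mulVec v = 0} with hSs
  have h3a := (SparseKernelLO.result n s).1
  have h3b := (SparseKernelLO.result n s).2.1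
  have h3 := h3a.trans h3b
  have hs := gen_bound n s k
  have hcardN : (Nat.card (Sym2 (Fin n) → Bool) : ℝ) = 2 ^ Fintype.card (Sym2 (Fin n)) := by
    rw [Nat.card_eq_fintype_card, Fintype.card_fun, Fintype.card_bool]
    push_cast
    rfl
  rw [hcardN] at h3 hs ⊢
  rw [← hS3] at h3
  rw [← hSs] at hs
  have ha0 : (0 : ℝ) < 2 ^ Fintype.card (Sym2 (Fin n)) := by positivity
  have hsub : Sk ⊆ ((U : Set (Sym2 (Fin n) → Bool)) ∪ S3) ∪ Ss := by
    intro f hf
    obtain ⟨v, hv, hvk, hAv⟩ := hf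
    by_cases h2 : (Function.support v).ncard ≤ 2
    · left; left
      obtain ⟨x, hx, hfx⟩ := SparseKernelSharp.cover2 f v hv h2 hAv
      rw [Finset.mem_coe, hU, Finset.mem_biUnion]
      exact ⟨x, Finset.mem_offDiag.mpr ⟨Finset.mem_univ _, Finset.mem_univ _, hx⟩, hfx⟩
    · by_cases h4 : (Function.support v).ncard ≤ s
      · left; right
        exact ⟨v, by omega, h4, hAv⟩
      · right
        exact ⟨v, by omega, hvk, hAv⟩
  have hcard : (Sk.ncard : ℝ) ≤ (U.card : ℝ) + (S3.ncard : ℝ) + (Ss.ncard : ℝ) := by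
    have h1 : Sk.ncard ≤ (((U : Set (Sym2 (Fin n) → Bool)) ∪ S3) ∪ Ss).ncard :=
      Set.ncard_le_ncard hsub (Set.toFinite _)
    have h2 : (((U : Set (Sym2 (Fin n) → Bool)) ∪ S3) ∪ Ss).ncard
        ≤ ((U : Set (Sym2 (Fin n) → Bool)) ∪ S3).ncard + Ss.ncard := Set.ncard_union_le _ _
    have h2' : ((U : Set (Sym2 (Fin n) → Bool)) ∪ S3).ncard
        ≤ (U : Set (Sym2 (Fin n) → Bool)).ncard + S3.ncard := Set.ncard_union_le _ _
    rw [Set.ncard_coe_finset] at h2'
    have h4 : ((Sk.ncard : ℕ) : ℝ) ≤ ((U.card + S3.ncard + Ss.ncard : ℕ) : ℝ) :=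
      Nat.cast_le.mpr (h1.trans (h2.trans (Nat.add_le_add_right h2' _)))
    push_cast at h4
    exact h4
  calc (Sk.ncard : ℝ) / 2 ^ Fintype.card (Sym2 (Fin n))
      ≤ ((U.card : ℝ) + (S3.ncard : ℝ) + (Ss.ncard : ℝ)) / 2 ^ Fintype.card (Sym2 (Fin n)) :=
        div_le_div_of_nonneg_right hcard ha0.le
    _ = (U.card : ℝ) / 2 ^ Fintype.card (Sym2 (Fin n))
        + (S3.ncard : ℝ) / 2 ^ Fintype.card (Sym2 (Fin n))
        + (Ss.ncard : ℝ) / 2 ^ Fintype.card (Sym2 (Fin n)) := by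
        rw [add_div, add_div]
    _ ≤ (n : ℝ) * ((n : ℝ) - 1) / 2 ^ n + (3 * (n : ℝ) + 3) ^ (2 * s) * (3 / 8) ^ n
        + (∑ t ∈ Finset.range (k + 1), (n.choose t : ℝ)) ^ 2 * rho s ^ (n - 2 * k) :=
        add_le_add (add_le_add hupp h3) hs

theorem nn_nonneg (n : ℕ) : (0 : ℝ) ≤ (n : ℝ) * ((n : ℝ) - 1) := by
  rcases Nat.eq_zero_or_pos n with h | h
  · simp [h]
  · have h1 : (1 : ℝ) ≤ n := by exact_mod_cast h
    exact mul_nonneg (by linarith) (by linarith)

open Filter Topology in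
theorem aux_tendsto :
    Tendsto (fun n : ℕ => 256 * ((n : ℝ) * ((n : ℝ) - 1)) / 2 ^ n) atTop (𝓝 0) := by
  have h := tendsto_pow_const_div_const_pow_of_one_lt 2 (show (1 : ℝ) < 2 by norm_num)
  have h' : Tendsto (fun n : ℕ => 256 * ((n : ℝ) ^ 2 / 2 ^ n)) atTop (𝓝 0) := by
    simpa using h.const_mul 256
  refine squeeze_zero (fun n => ?_) (fun n => ?_) h'
  · have := nn_nonneg n
    positivity
  · rw [mul_div_assoc]
    apply mul_le_mul_of_nonneg_left _ (by norm_num)
    apply div_le_div_of_nonneg_right _ (by positivity)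
    have : (0 : ℝ) ≤ n := Nat.cast_nonneg n
    nlinarith

theorem key_identity (n : ℕ) :
    (n : ℝ) * ((n : ℝ) - 1) / 2 ^ n - 256 * ((n : ℝ) * ((n : ℝ) - 1)) ^ 2 / 4 ^ n
      = (1 - 256 * ((n : ℝ) * ((n : ℝ) - 1)) / 2 ^ n) * ((n : ℝ) * ((n : ℝ) - 1) / 2 ^ n) := by
  have e4 : (4 : ℝ) ^ n = 2 ^ n * 2 ^ n := by
    rw [← mul_pow]
    norm_num
  rw [e4]
  ring

open Filter Topology in
theorem poly_geom_tendsto (s : ℕ) :
    Tendsto (fun n : ℕ => (3 * (n : ℝ) + 3) ^ (2 * s) * (3 / 4) ^ n) atTop (𝓝 0) := by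
  have h0 := tendsto_pow_const_mul_const_pow_of_abs_lt_one (2 * s)
    (show |(3 / 4 : ℝ)| < 1 by rw [abs_of_pos (by norm_num)]; norm_num)
  have h1 := h0.comp (tendsto_add_atTop_nat 1)
  have h2 := h1.const_mul ((3 : ℝ) ^ (2 * s) * (4 / 3))
  rw [mul_zero] at h2
  refine h2.congr (fun n => ?_)
  simp only [Function.comp_apply]
  have e : (3 * (n : ℝ) + 3) = 3 * ((n : ℝ) + 1) := by ring
  rw [e, mul_pow]
  push_cast
  ring

/-- the third term is at most `(1/4)^n` once `n ≤ M (n - 2k)` and `rho s ≤ (1/16)^M` -/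
theorem third_term (n k s M : ℕ) (hρ : rho s ≤ (1 / 16) ^ M) (hM : n ≤ M * (n - 2 * k)) :
    (∑ t ∈ Finset.range (k + 1), (n.choose t : ℝ)) ^ 2 * rho s ^ (n - 2 * k) ≤ (1 / 4) ^ n := by
  have hS := SparseKernelSharp.sum_choose_mul_pow_le n k 1 (by norm_num) (by norm_num)
  rw [one_pow, mul_one] at hS
  have h2 : (1 + 1 : ℝ) = 2 := by norm_num
  rw [h2] at hS
  have hS0 : (0 : ℝ) ≤ ∑ t ∈ Finset.range (k + 1), (n.choose t : ℝ) :=
    Finset.sum_nonneg (fun t _ => Nat.cast_nonneg _)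
  have hS2 : (∑ t ∈ Finset.range (k + 1), (n.choose t : ℝ)) ^ 2 ≤ ((2 : ℝ) ^ n) ^ 2 :=
    pow_le_pow_left₀ hS0 hS 2
  have hr1 : rho s ^ (n - 2 * k) ≤ ((1 / 16 : ℝ) ^ M) ^ (n - 2 * k) :=
    pow_le_pow_left₀ (rho_pos s).le hρ _
  have hr2 : ((1 / 16 : ℝ) ^ M) ^ (n - 2 * k) ≤ (1 / 16) ^ n := by
    rw [← pow_mul]
    exact pow_le_pow_of_le_one (by norm_num) (by norm_num) hM
  calc (∑ t ∈ Finset.range (k + 1), (n.choose t : ℝ)) ^ 2 * rho s ^ (n - 2 * k)
      ≤ ((2 : ℝ) ^ n) ^ 2 * (1 / 16) ^ n :=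
        mul_le_mul hS2 (hr1.trans hr2) (pow_nonneg (rho_pos s).le _) (by positivity)
    _ = (1 / 4) ^ n := by
        rw [← pow_mul, mul_comm n 2, pow_mul, ← mul_pow]
        norm_num

end aux

open Filter Topology in
/-- **Null vectors with fewer than half of the coordinates nonzero.**  A function
`f : Sym2 (Fin n) → Bool` codes the symmetric `n × n` sign matrix with entries
`a i j = 1` if `f s(i, j)` and `-1` otherwise; the uniform distribution on such `f` is
exactly the model with independent uniform signs on and above the diagonal.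

* For every real `δ < 1/2` and every sequence `k n` with `2 ≤ k n ≤ δ n` eventually, the
  fraction of matrices having a nonzero null vector with at most `k n` nonzero coordinates,
  divided by `n (n - 1) / 2^n`, tends to `1`.
* For every `ε > 0`, eventually the fraction of singular matrices is at least
  `(1 - ε) n (n - 1) / 2^n`.
* For all `n`, `s`, `k`, the fraction of matrices having a null vector with at least `s` and
  at most `k` nonzero coordinates is at most
  `(∑_{t ≤ k} C(n, t))^2 (C(s, s/2) / 2^s)^(n - 2k)`. -/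
theorem result :
    (∀ δ : ℝ, δ < 1 / 2 → ∀ k : ℕ → ℕ, (∀ᶠ n in atTop, 2 ≤ k n ∧ (k n : ℝ) ≤ δ * n) →
      Tendsto (fun n : ℕ =>
        ((Set.ncard {f : Sym2 (Fin n) → Bool |
            ∃ v : Fin n → ℝ, v ≠ 0 ∧ (Function.support v).ncard ≤ k n ∧
              (Matrix.of fun i j => if f s(i, j) then (1 : ℝ) else -1).mulVec v = 0} : ℝ)
          / Nat.card (Sym2 (Fin n) → Bool))
        / ((n : ℝ) * ((n : ℝ) - 1) / 2 ^ n)) atTop (𝓝 1))
    ∧ (∀ ε : ℝ, 0 < ε → ∀ᶠ n : ℕ in atTop,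
        (1 - ε) * ((n : ℝ) * ((n : ℝ) - 1) / 2 ^ n)
          ≤ (Set.ncard {f : Sym2 (Fin n) → Bool |
              (Matrix.of fun i j => if f s(i, j) then (1 : ℝ) else -1).det = 0} : ℝ)
            / Nat.card (Sym2 (Fin n) → Bool))
    ∧ (∀ n s k : ℕ,
        (Set.ncard {f : Sym2 (Fin n) → Bool |
            ∃ v : Fin n → ℝ, s ≤ (Function.support v).ncard ∧ (Function.support v).ncard ≤ k ∧
              (Matrix.of fun i j => if f s(i, j) then (1 : ℝ) else -1).mulVec v = 0} : ℝ)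
          / Nat.card (Sym2 (Fin n) → Bool)
        ≤ (∑ t ∈ Finset.range (k + 1), (n.choose t : ℝ)) ^ 2
          * ((s.choose (s / 2) : ℝ) / 2 ^ s) ^ (n - 2 * k)) := by
  have hz := aux_tendsto
  refine ⟨?_, ?_, ?_⟩
  · intro δ hδ k hk
    -- parameters
    have hγ : 0 < 1 - 2 * δ := by linarith
    obtain ⟨M, hM⟩ := exists_nat_ge (1 / (1 - 2 * δ))
    have hMγ : 1 ≤ (M : ℝ) * (1 - 2 * δ) := by
      rw [div_le_iff₀ hγ] at hM
      exact hM
    obtain ⟨s, -, hρ⟩ := exists_rho_le ((1 / 16 : ℝ) ^ M) (by positivity)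
    have hlow : Tendsto (fun n : ℕ => 1 - 256 * ((n : ℝ) * ((n : ℝ) - 1)) / 2 ^ n)
        atTop (𝓝 1) := by
      simpa using (tendsto_const_nhds (x := (1 : ℝ))).sub hz
    have hhalf : Tendsto (fun n : ℕ => ((1 : ℝ) / 2) ^ n) atTop (𝓝 0) :=
      tendsto_pow_atTop_nhds_zero_of_lt_one (by norm_num) (by norm_num)
    have hupp : Tendsto (fun n : ℕ =>
        1 + ((3 * (n : ℝ) + 3) ^ (2 * s) * (3 / 4) ^ n + (1 / 2) ^ n)) atTop (𝓝 1) := by
      simpa using (tendsto_const_nhds (x := (1 : ℝ))).add ((poly_geom_tendsto s).add hhalf)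
    have hcpos : ∀ n : ℕ, 2 ≤ n → (1 : ℝ) ≤ (n : ℝ) * ((n : ℝ) - 1) := by
      intro n hn
      have h2 : (2 : ℝ) ≤ n := by exact_mod_cast hn
      nlinarith
    refine tendsto_of_tendsto_of_tendsto_of_le_of_le' hlow hupp ?_ ?_
    · filter_upwards [hk, eventually_ge_atTop 2] with n hn hn2
      obtain ⟨h1, -, -⟩ := (Vale.Agent.Results.P160.SparseKernelSharp.result n).2 (k n) hn.1
      have hc : (0 : ℝ) < (n : ℝ) * ((n : ℝ) - 1) / 2 ^ n :=
        div_pos (by linarith [hcpos n hn2]) (by positivity)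
      rw [le_div_iff₀ hc, ← key_identity]
      exact h1
    · filter_upwards [hk, eventually_ge_atTop 2] with n hn hn2
      have hc1 := hcpos n hn2
      have hc : (0 : ℝ) < (n : ℝ) * ((n : ℝ) - 1) / 2 ^ n :=
        div_pos (by linarith) (by positivity)
      -- `n ≤ M * (n - 2 * k n)`
      have hn0 : (0 : ℝ) ≤ (n : ℝ) := Nat.cast_nonneg n
      have hkr : 2 * (k n : ℝ) ≤ n := by nlinarith [hn.2]
      have hkn : 2 * k n ≤ n := by exact_mod_cast hkr
      have hMn : n ≤ M * (n - 2 * k n) := by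
        have hcast : ((n - 2 * k n : ℕ) : ℝ) = (n : ℝ) - 2 * (k n : ℝ) := by
          rw [Nat.cast_sub hkn]
          push_cast
          ring
        have hM0 : (0 : ℝ) ≤ (M : ℝ) := Nat.cast_nonneg M
        have hreal : (n : ℝ) ≤ (M : ℝ) * ((n - 2 * k n : ℕ) : ℝ) := by
          rw [hcast]
          have h1 : (1 - 2 * δ) * (n : ℝ) ≤ (n : ℝ) - 2 * (k n : ℝ) := by nlinarith [hn.2]
          calc (n : ℝ) = 1 * (n : ℝ) := (one_mul _).symm
            _ ≤ ((M : ℝ) * (1 - 2 * δ)) * (n : ℝ) := mul_le_mul_of_nonneg_right hMγ hn0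
            _ = (M : ℝ) * ((1 - 2 * δ) * (n : ℝ)) := by ring
            _ ≤ (M : ℝ) * ((n : ℝ) - 2 * (k n : ℝ)) := mul_le_mul_of_nonneg_left h1 hM0
        exact_mod_cast hreal
      have h3 := third_term n (k n) s M hρ hMn
      have hup := upper_combined n (k n) s
      rw [div_le_iff₀ hc]
      have e8 : ((3 : ℝ) / 8) ^ n = (3 / 4) ^ n / 2 ^ n := by
        rw [← div_pow]
        norm_num
      have e4 : ((1 : ℝ) / 4) ^ n = (1 / 2) ^ n / 2 ^ n := by
        rw [← div_pow]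
        norm_num
      have hA : (3 * (n : ℝ) + 3) ^ (2 * s) * (3 / 8) ^ n
          ≤ (3 * (n : ℝ) + 3) ^ (2 * s) * (3 / 4) ^ n * ((n : ℝ) * ((n : ℝ) - 1) / 2 ^ n) := by
        rw [e8, ← mul_div_assoc, ← mul_div_assoc]
        apply div_le_div_of_nonneg_right _ (by positivity)
        have hp : (0 : ℝ) ≤ (3 * (n : ℝ) + 3) ^ (2 * s) * (3 / 4) ^ n := by positivity
        nlinarith
      have hB : ((1 : ℝ) / 4) ^ n ≤ (1 / 2) ^ n * ((n : ℝ) * ((n : ℝ) - 1) / 2 ^ n) := by
        rw [e4, ← mul_div_assoc]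
        apply div_le_div_of_nonneg_right _ (by positivity)
        have hp : (0 : ℝ) ≤ (1 / 2 : ℝ) ^ n := by positivity
        nlinarith
      calc _ ≤ (n : ℝ) * ((n : ℝ) - 1) / 2 ^ n + (3 * (n : ℝ) + 3) ^ (2 * s) * (3 / 8) ^ n
            + (∑ t ∈ Finset.range (k n + 1), (n.choose t : ℝ)) ^ 2 * rho s ^ (n - 2 * k n) := hup
        _ ≤ (n : ℝ) * ((n : ℝ) - 1) / 2 ^ n + (3 * (n : ℝ) + 3) ^ (2 * s) * (3 / 8) ^ n
            + (1 / 4) ^ n := by linarith
        _ ≤ (1 + ((3 * (n : ℝ) + 3) ^ (2 * s) * (3 / 4) ^ n + (1 / 2) ^ n))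
            * ((n : ℝ) * ((n : ℝ) - 1) / 2 ^ n) := by
            rw [add_mul, one_mul, add_mul]
            linarith
  · intro ε hε
    have hev : ∀ᶠ n : ℕ in atTop, 256 * ((n : ℝ) * ((n : ℝ) - 1)) / 2 ^ n < ε :=
      hz.eventually (gt_mem_nhds hε)
    filter_upwards [hev] with n hn
    have h1 := (Vale.Agent.Results.P160.SparseKernelSharp.result n).1
    refine le_trans ?_ h1
    rw [key_identity]
    have hc0 : (0 : ℝ) ≤ (n : ℝ) * ((n : ℝ) - 1) / 2 ^ n :=
      div_nonneg (nn_nonneg n) (by positivity)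
    apply mul_le_mul_of_nonneg_right _ hc0
    linarith
  · intro n s k
    have h := gen_bound n s k
    unfold rho at h
    exact h

end Vale.Agent.Results.P160.SparseKernelHalf
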