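import Vale.Agent.Results.P160.SparseKernel

set_option autoImplicit false
set_option linter.unusedSimpArgs false

namespace Vale.Agent.Results.P160.SparseKernelLO

open Finset
open Vale.Agent.Results.P160.SparseKernel

section aux

/-- sign of a Boolean -/
def sg (b : Bool) : ℝ := if b then 1 else -1

theorem three (a b c d : ℝ) (ha : a ≠ 0) (hb : b ≠ 0) (hc : c ≠ 0) :
    (Finset.univ.filter (fun p : Bool × Bool × Bool =>
      sg p.1 * a + sg p.2.1 * b + sg p.2.2 * c = d)).card ≤ 3 := by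
  classical
  rw [Finset.card_filter]
  simp only [Fintype.sum_prod_type, Fintype.sum_bool, sg]
  simp only [if_true, Bool.false_eq_true, if_false]
  by_contra hcon
  rw [not_le] at hcon
  have e1 : ¬ ((1:ℝ) * a + 1 * b + 1 * c = d ∧ (-1:ℝ) * a + 1 * b + 1 * c = d) := by
    rintro ⟨h1, h2⟩; exact ha (by linarith)
  have e2 : ¬ ((1:ℝ) * a + 1 * b + -1 * c = d ∧ (-1:ℝ) * a + 1 * b + -1 * c = d) := by
    rintro ⟨h1, h2⟩; exact ha (by linarith)
  have e3 : ¬ ((1:ℝ) * a + -1 * b + 1 * c = d ∧ (-1:ℝ) * a + -1 * b + 1 * c = d) := by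
    rintro ⟨h1, h2⟩; exact ha (by linarith)
  have e4 : ¬ ((1:ℝ) * a + -1 * b + -1 * c = d ∧ (-1:ℝ) * a + -1 * b + -1 * c = d) := by
    rintro ⟨h1, h2⟩; exact ha (by linarith)
  have e5 : ¬ ((1:ℝ) * a + 1 * b + 1 * c = d ∧ (1:ℝ) * a + -1 * b + 1 * c = d) := by
    rintro ⟨h1, h2⟩; exact hb (by linarith)
  have e6 : ¬ ((1:ℝ) * a + 1 * b + -1 * c = d ∧ (1:ℝ) * a + -1 * b + -1 * c = d) := by
    rintro ⟨h1, h2⟩; exact hb (by linarith)
  have e7 : ¬ ((-1:ℝ) * a + 1 * b + 1 * c = d ∧ (-1:ℝ) * a + -1 * b + 1 * c = d) := by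
    rintro ⟨h1, h2⟩; exact hb (by linarith)
  have e8 : ¬ ((-1:ℝ) * a + 1 * b + -1 * c = d ∧ (-1:ℝ) * a + -1 * b + -1 * c = d) := by
    rintro ⟨h1, h2⟩; exact hb (by linarith)
  have e9 : ¬ ((1:ℝ) * a + 1 * b + 1 * c = d ∧ (1:ℝ) * a + 1 * b + -1 * c = d) := by
    rintro ⟨h1, h2⟩; exact hc (by linarith)
  have e10 : ¬ ((1:ℝ) * a + -1 * b + 1 * c = d ∧ (1:ℝ) * a + -1 * b + -1 * c = d) := by
    rintro ⟨h1, h2⟩; exact hc (by linarith)
  have e11 : ¬ ((-1:ℝ) * a + 1 * b + 1 * c = d ∧ (-1:ℝ) * a + 1 * b + -1 * c = d) := by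
    rintro ⟨h1, h2⟩; exact hc (by linarith)
  have e12 : ¬ ((-1:ℝ) * a + -1 * b + 1 * c = d ∧ (-1:ℝ) * a + -1 * b + -1 * c = d) := by
    rintro ⟨h1, h2⟩; exact hc (by linarith)
  have p1 : ¬ ((1:ℝ) * a + 1 * b + 1 * c = d ∧ (1:ℝ) * a + -1 * b + -1 * c = d ∧
      (-1:ℝ) * a + 1 * b + -1 * c = d ∧ (-1:ℝ) * a + -1 * b + 1 * c = d) := by
    rintro ⟨h1, h2, h3, h4⟩; exact ha (by linarith)
  have p2 : ¬ ((-1:ℝ) * a + -1 * b + -1 * c = d ∧ (-1:ℝ) * a + 1 * b + 1 * c = d ∧
      (1:ℝ) * a + -1 * b + 1 * c = d ∧ (1:ℝ) * a + 1 * b + -1 * c = d) := by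
    rintro ⟨h1, h2, h3, h4⟩; exact ha (by linarith)
  by_cases q1 : (1:ℝ) * a + 1 * b + 1 * c = d <;>
  by_cases q2 : (1:ℝ) * a + 1 * b + -1 * c = d <;>
  by_cases q3 : (1:ℝ) * a + -1 * b + 1 * c = d <;>
  by_cases q4 : (1:ℝ) * a + -1 * b + -1 * c = d <;>
  by_cases q5 : (-1:ℝ) * a + 1 * b + 1 * c = d <;>
  by_cases q6 : (-1:ℝ) * a + 1 * b + -1 * c = d <;>
  by_cases q7 : (-1:ℝ) * a + -1 * b + 1 * c = d <;>
  by_cases q8 : (-1:ℝ) * a + -1 * b + -1 * c = d <;>
  simp only [q1, q2, q3, q4, q5, q6, q7, q8, if_true, if_false, and_self, and_true, true_and,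
    not_true_eq_false, and_false, false_and, not_false_eq_true]
    at hcon e1 e2 e3 e4 e5 e6 e7 e8 e9 e10 e11 e12 p1 p2 <;>
  omega

section general

variable {ι : Type*} [Fintype ι] [DecidableEq ι]

/-- overwrite three coordinates -/
def upd (j1 j2 j3 : ι) (ε : ι → Bool) (p : Bool × Bool × Bool) : ι → Bool :=
  Function.update (Function.update (Function.update ε j3 p.2.2) j2 p.2.1) j1 p.1

theorem sum_upd (j1 j2 j3 : ι) (h12 : j1 ≠ j2) (h13 : j1 ≠ j3) (h23 : j2 ≠ j3)
    (w : ι → ℝ) (ε : ι → Bool) (p : Bool × Bool × Bool) :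
    ∑ j, sg (upd j1 j2 j3 ε p j) * w j
      = sg p.1 * w j1 + sg p.2.1 * w j2 + sg p.2.2 * w j3
        + ∑ j ∈ ((Finset.univ.erase j1).erase j2).erase j3, sg (ε j) * w j := by
  have m1 : j1 ∈ (Finset.univ : Finset ι) := Finset.mem_univ _
  have m2 : j2 ∈ (Finset.univ : Finset ι).erase j1 :=
    Finset.mem_erase.mpr ⟨h12.symm, Finset.mem_univ _⟩
  have m3 : j3 ∈ ((Finset.univ : Finset ι).erase j1).erase j2 :=
    Finset.mem_erase.mpr ⟨h23.symm, Finset.mem_erase.mpr ⟨h13.symm, Finset.mem_univ _⟩⟩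
  rw [← Finset.add_sum_erase _ _ m1, ← Finset.add_sum_erase _ _ m2, ← Finset.add_sum_erase _ _ m3]
  have v1 : upd j1 j2 j3 ε p j1 = p.1 := by simp [upd]
  have v2 : upd j1 j2 j3 ε p j2 = p.2.1 := by simp [upd, Function.update_apply, h12.symm]
  have v3 : upd j1 j2 j3 ε p j3 = p.2.2 := by
    simp [upd, Function.update_apply, h13.symm, h23.symm]
  rw [v1, v2, v3]
  have rest : ∑ j ∈ ((Finset.univ.erase j1).erase j2).erase j3, sg (upd j1 j2 j3 ε p j) * w j
      = ∑ j ∈ ((Finset.univ.erase j1).erase j2).erase j3, sg (ε j) * w j := by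
    refine Finset.sum_congr rfl (fun j hj => ?_)
    have hj3 : j ≠ j3 := Finset.ne_of_mem_erase hj
    have hj' := Finset.mem_of_mem_erase hj
    have hj2 : j ≠ j2 := Finset.ne_of_mem_erase hj'
    have hj1 : j ≠ j1 := Finset.ne_of_mem_erase (Finset.mem_of_mem_erase hj')
    have : upd j1 j2 j3 ε p j = ε j := by
      simp [upd, Function.update_apply, hj1, hj2, hj3]
    rw [this]
  rw [rest]
  ring

/-- Littlewood-Offord with three nonzero coefficients: at most 3/8 of all sign patterns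
annihilate `w`. -/
theorem lo (j1 j2 j3 : ι) (h12 : j1 ≠ j2) (h13 : j1 ≠ j3) (h23 : j2 ≠ j3)
    (w : ι → ℝ) (h1 : w j1 ≠ 0) (h2 : w j2 ≠ 0) (h3 : w j3 ≠ 0) :
    8 * (Finset.univ.filter (fun ε : ι → Bool => ∑ j, sg (ε j) * w j = 0)).card
      ≤ 3 * 2 ^ Fintype.card ι := by
  classical
  set Z : Finset (ι → Bool) := Finset.univ.filter (fun ε : ι → Bool => ∑ j, sg (ε j) * w j = 0)
    with hZ
  set W : Finset ((ι → Bool) × (Bool × Bool × Bool)) :=
    (Finset.univ ×ˢ Finset.univ).filter (fun x => upd j1 j2 j3 x.1 x.2 ∈ Z) with hW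
  -- upper bound on W
  have hWle : W.card ≤ 3 * 2 ^ Fintype.card ι := by
    rw [hW, Finset.card_filter, Finset.sum_product]
    have hper : ∀ ε : ι → Bool,
        ∑ p : Bool × Bool × Bool, (if upd j1 j2 j3 ε p ∈ Z then 1 else 0) ≤ 3 := by
      intro ε
      rw [← Finset.card_filter]
      have hsub : (Finset.univ.filter (fun p : Bool × Bool × Bool => upd j1 j2 j3 ε p ∈ Z))
          = Finset.univ.filter (fun p : Bool × Bool × Bool =>
            sg p.1 * w j1 + sg p.2.1 * w j2 + sg p.2.2 * w j3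
              = -∑ j ∈ ((Finset.univ.erase j1).erase j2).erase j3, sg (ε j) * w j) := by
        ext p
        simp only [Finset.mem_filter, Finset.mem_univ, true_and, hZ]
        rw [sum_upd j1 j2 j3 h12 h13 h23 w ε p]
        constructor <;> intro h <;> linarith
      rw [hsub]
      exact three _ _ _ _ h1 h2 h3
    calc ∑ ε : ι → Bool, ∑ p : Bool × Bool × Bool, (if upd j1 j2 j3 ε p ∈ Z then 1 else 0)
        ≤ ∑ _ε : ι → Bool, 3 := Finset.sum_le_sum (fun ε _ => hper ε)
      _ = 3 * 2 ^ Fintype.card ι := by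
        rw [Finset.sum_const, Finset.card_univ, Fintype.card_fun, Fintype.card_bool,
          smul_eq_mul, mul_comm]
  -- lower bound on W
  have hWge : 8 * Z.card ≤ W.card := by
    have h8 : (Finset.univ : Finset (Bool × Bool × Bool)).card = 8 := by decide
    have hc : (Z ×ˢ (Finset.univ : Finset (Bool × Bool × Bool))).card = 8 * Z.card := by
      rw [Finset.card_product, h8, mul_comm]
    rw [← hc]
    apply Finset.card_le_card_of_injOn
      (fun x : (ι → Bool) × (Bool × Bool × Bool) =>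
        (upd j1 j2 j3 x.1 x.2, (x.1 j1, x.1 j2, x.1 j3)))
    · intro x hx
      have hx1 : x.1 ∈ Z := (Finset.mem_product.mp hx).1
      simp only [hW, Finset.coe_filter, Finset.mem_product, Finset.mem_univ, true_and,
        Set.mem_ofPred_eq]
      have : upd j1 j2 j3 (upd j1 j2 j3 x.1 x.2) (x.1 j1, x.1 j2, x.1 j3) = x.1 := by
        funext j
        simp only [upd, Function.update_apply]
        split_ifs with a b c <;> simp_all
      rw [this]
      exact hx1
    · intro x hx y hy hxy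
      simp only [Prod.mk.injEq] at hxy
      obtain ⟨hu, ha, hb, hc'⟩ := hxy
      have hfst : x.1 = y.1 := by
        funext j
        by_cases e1 : j = j1
        · rw [e1]; exact ha
        by_cases e2 : j = j2
        · rw [e2]; exact hb
        by_cases e3 : j = j3
        · rw [e3]; exact hc'
        have hx' : upd j1 j2 j3 x.1 x.2 j = x.1 j := by
          simp [upd, Function.update_apply, e1, e2, e3]
        have hy' : upd j1 j2 j3 y.1 y.2 j = y.1 j := by
          simp [upd, Function.update_apply, e1, e2, e3]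
        rw [← hx', ← hy', hu]
      have hsnd : x.2 = y.2 := by
        have q1 : upd j1 j2 j3 x.1 x.2 j1 = x.2.1 := by simp [upd]
        have q1' : upd j1 j2 j3 y.1 y.2 j1 = y.2.1 := by simp [upd]
        have q2 : upd j1 j2 j3 x.1 x.2 j2 = x.2.2.1 := by
          simp [upd, Function.update_apply, h12.symm]
        have q2' : upd j1 j2 j3 y.1 y.2 j2 = y.2.2.1 := by
          simp [upd, Function.update_apply, h12.symm]
        have q3 : upd j1 j2 j3 x.1 x.2 j3 = x.2.2.2 := by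
          simp [upd, Function.update_apply, h13.symm, h23.symm]
        have q3' : upd j1 j2 j3 y.1 y.2 j3 = y.2.2.2 := by
          simp [upd, Function.update_apply, h13.symm, h23.symm]
        ext
        · rw [← q1, ← q1', hu]
        · rw [← q2, ← q2', hu]
        · rw [← q3, ← q3', hu]
      exact Prod.ext hfst hsnd
  exact hWge.trans hWle


end general

variable {n : ℕ}

theorem ent_eq_sg (f : Sym2 (Fin n) → Bool) (i j : Fin n) : ent f i j = sg (f s(i, j)) := rfl

/-- Littlewood-Offord count on a set `T` with at least three elements on which `v` does not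
vanish. -/
theorem lo_set (T : Finset (Fin n)) (hT : 3 ≤ T.card) (v : Fin n → ℝ)
    (hv : ∀ j ∈ T, v j ≠ 0) :
    8 * (Finset.univ.filter (fun ε : ↥T → Bool => ∑ j : ↥T, sg (ε j) * v j = 0)).card
      ≤ 3 * 2 ^ T.card := by
  classical
  obtain ⟨a, b, c, ha, hb, hc, hab, hac, hbc⟩ := Finset.two_lt_card_iff.mp hT
  have h := lo (ι := ↥T) ⟨a, ha⟩ ⟨b, hb⟩ ⟨c, hc⟩
    (fun h => hab (congrArg Subtype.val h)) (fun h => hac (congrArg Subtype.val h))
    (fun h => hbc (congrArg Subtype.val h)) (fun j : ↥T => v j) (hv a ha) (hv b hb) (hv c hc)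
  rw [Fintype.card_coe] at h
  exact h

/-- The refined count for a fixed column set `T` with at least three elements and a row set
`R`: each row outside `T ∪ R` costs a factor `3/8`. -/
theorem card_piece_lo (T R : Finset (Fin n)) (hT : 3 ≤ T.card) :
    (piece T R).card * 8 ^ (n - (T ∪ R).card)
      ≤ 2 ^ Fintype.card (Sym2 (Fin n)) * 3 ^ (n - (T ∪ R).card) := by
  classical
  set I : Finset (Fin n) := (T ∪ R)ᶜ with hI
  have hIcard : I.card = n - (T ∪ R).card := by
    rw [hI, Finset.card_compl, Fintype.card_fin]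
  set m : ℕ := n - (T ∪ R).card with hm
  set D : Finset (Sym2 (Fin n)) := (I ×ˢ T).image (fun x => s(x.1, x.2)) with hD
  have hInotT : ∀ i ∈ I, i ∉ T := by
    intro i hi hiT
    exact (Finset.mem_compl.mp hi) (Finset.mem_union_left _ hiT)
  have hInotR : ∀ i ∈ I, i ∉ R := by
    intro i hi hiR
    exact (Finset.mem_compl.mp hi) (Finset.mem_union_right _ hiR)
  have hDcard : D.card = m * T.card := by
    rw [hD, Finset.card_image_of_injOn, Finset.card_product, hIcard]
    intro x hx y hy h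
    have hx' := Finset.mem_product.mp hx
    have hy' := Finset.mem_product.mp hy
    rcases Sym2.eq_iff.mp h with ⟨h1, h2⟩ | ⟨h1, h2⟩
    · exact Prod.ext h1 h2
    · exfalso
      exact hInotT x.1 hx'.1 (h1 ▸ hy'.2)
  have hmemD : ∀ i ∈ I, ∀ j ∈ T, s(i, j) ∈ D := by
    intro i hi j hj
    rw [hD, Finset.mem_image]
    exact ⟨(i, j), Finset.mem_product.mpr ⟨hi, hj⟩, rfl⟩
  have hRT : ∀ r ∈ R, ∀ j ∈ T, s(r, j) ∉ D := by
    intro r hr j hj hmem
    rw [hD, Finset.mem_image] at hmem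
    obtain ⟨x, hx, h⟩ := hmem
    have hx' := Finset.mem_product.mp hx
    rcases Sym2.eq_iff.mp h with ⟨h1, -⟩ | ⟨h1, -⟩
    · exact hInotR x.1 hx'.1 (h1 ▸ hr)
    · exact hInotT x.1 hx'.1 (h1 ▸ hj)
  set N : ℕ := Fintype.card (Sym2 (Fin n)) with hN
  have hDle : D.card ≤ N := Finset.card_le_univ D
  -- restriction to the complement of `D`
  set ρ : (Sym2 (Fin n) → Bool) → (↥(Dᶜ) → Bool) := fun f x => f x with hρ
  have himg : ((piece T R).image ρ).card ≤ 2 ^ (N - D.card) := by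
    refine (Finset.card_le_univ _).trans ?_
    rw [Fintype.card_fun, Fintype.card_bool, Fintype.card_coe, Finset.card_compl]
  -- each fibre
  have hfib : ∀ a ∈ (piece T R).image ρ,
      ((piece T R).filter (fun f => ρ f = a)).card * 8 ^ m ≤ (3 * 2 ^ T.card) ^ m := by
    intro a ha
    obtain ⟨f0, hf0, hf0a⟩ := Finset.mem_image.mp ha
    obtain ⟨v0, hv0, hAv0, -⟩ := mem_piece.mp hf0
    set F : Finset (Sym2 (Fin n) → Bool) := (piece T R).filter (fun f => ρ f = a) with hF
    set Z : Finset (↥T → Bool) :=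
      Finset.univ.filter (fun ε : ↥T → Bool => ∑ j : ↥T, sg (ε j) * v0 j = 0) with hZ
    have hZle : 8 * Z.card ≤ 3 * 2 ^ T.card :=
      lo_set T hT v0 (fun j hj => (hv0 j).mpr hj)
    -- members of the fibre agree with `f0` outside `D`
    have key : ∀ f ∈ F, ∀ x, x ∉ D → f x = f0 x := by
      intro f hf x hx
      have hfa := (Finset.mem_filter.mp hf).2
      have h1 := congrFun hfa ⟨x, Finset.mem_compl.mpr hx⟩
      have h2 := congrFun hf0a ⟨x, Finset.mem_compl.mpr hx⟩
      simp only [hρ] at h1 h2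
      rw [h1, h2]
    -- every member of the fibre annihilates `v0` in every row
    have hrows : ∀ f ∈ F, ∀ i, ∑ j ∈ T, ent f i j * v0 j = 0 := by
      intro f hf i
      obtain ⟨v, -, -, hann⟩ := mem_piece.mp (Finset.mem_filter.mp hf).1
      apply hann i v0
      intro r hr
      rw [← hAv0 r]
      refine Finset.sum_congr rfl (fun j hj => ?_)
      have : ent f r j = ent f0 r j := by
        unfold ent
        rw [key f hf _ (hRT r hr j hj)]
      rw [this]
    -- the values on `D`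
    set μ : (Sym2 (Fin n) → Bool) → (↥I → ↥T → Bool) :=
      fun f i j => f s(i.1, j.1) with hμ
    have hmaps : ∀ f ∈ F, μ f ∈ Fintype.piFinset (fun _ : ↥I => Z) := by
      intro f hf
      rw [Fintype.mem_piFinset]
      intro i
      rw [hZ, Finset.mem_filter]
      refine ⟨Finset.mem_univ _, ?_⟩
      have h := hrows f hf i.1
      rw [← Finset.sum_coe_sort T (fun j => ent f i.1 j * v0 j)] at h
      exact h
    have hinj : Set.InjOn μ (F : Set (Sym2 (Fin n) → Bool)) := by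
      intro f hf f' hf' hEq
      funext x
      by_cases hx : x ∈ D
      · rw [hD, Finset.mem_image] at hx
        obtain ⟨y, hy, rfl⟩ := hx
        have hy' := Finset.mem_product.mp hy
        exact congrFun (congrFun hEq ⟨y.1, hy'.1⟩) ⟨y.2, hy'.2⟩
      · rw [key f hf x hx, key f' hf' x hx]
    have hFcard : F.card ≤ Z.card ^ m := by
      have h1 := Finset.card_le_card_of_injOn μ hmaps hinj
      rw [Fintype.card_piFinset, Finset.prod_const, Finset.card_univ, Fintype.card_coe,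
        hIcard] at h1
      exact h1
    calc F.card * 8 ^ m ≤ Z.card ^ m * 8 ^ m := Nat.mul_le_mul_right _ hFcard
      _ = (8 * Z.card) ^ m := by rw [mul_pow, mul_comm]
      _ ≤ (3 * 2 ^ T.card) ^ m := Nat.pow_le_pow_left hZle m
  -- assemble
  have hsum : (piece T R).card * 8 ^ m
      = ∑ a ∈ (piece T R).image ρ, ((piece T R).filter (fun f => ρ f = a)).card * 8 ^ m := by
    rw [Finset.card_eq_sum_card_image ρ (piece T R), Finset.sum_mul]
  calc (piece T R).card * 8 ^ m
      = ∑ a ∈ (piece T R).image ρ, ((piece T R).filter (fun f => ρ f = a)).card * 8 ^ m := hsum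
    _ ≤ ∑ _a ∈ (piece T R).image ρ, (3 * 2 ^ T.card) ^ m := Finset.sum_le_sum hfib
    _ = ((piece T R).image ρ).card * (3 * 2 ^ T.card) ^ m := by
        rw [Finset.sum_const, smul_eq_mul]
    _ ≤ 2 ^ (N - D.card) * (3 * 2 ^ T.card) ^ m := Nat.mul_le_mul_right _ himg
    _ = 2 ^ N * 3 ^ m := by
        rw [mul_pow, ← pow_mul, mul_comm T.card m, ← hDcard]
        calc 2 ^ (N - D.card) * (3 ^ m * 2 ^ D.card)
            = (2 ^ (N - D.card) * 2 ^ D.card) * 3 ^ m := by ring
          _ = 2 ^ N * 3 ^ m := by rw [← pow_add, Nat.sub_add_cancel hDle]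

theorem cover3 (k : ℕ) (f : Sym2 (Fin n) → Bool) (v : Fin n → ℝ)
    (h3 : 3 ≤ (Function.support v).ncard) (hk : (Function.support v).ncard ≤ k)
    (hA : (Matrix.of fun i j => if f s(i, j) then (1 : ℝ) else -1).mulVec v = 0) :
    ∃ T R : Finset (Fin n), 3 ≤ T.card ∧ T.card ≤ k ∧ R.card ≤ k ∧ f ∈ piece T R := by
  classical
  set T : Finset (Fin n) := Finset.univ.filter (fun j => v j ≠ 0) with hT
  have hmemT : ∀ j, j ∈ T ↔ v j ≠ 0 := by
    intro j
    rw [hT, Finset.mem_filter]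
    simp
  have hsupp : Function.support v = (T : Set (Fin n)) := by
    ext j
    simp [hmemT]
  rw [hsupp, Set.ncard_coe_finset] at hk h3
  have hrow : ∀ i, ∑ j ∈ T, ent f i j * v j = 0 := by
    intro i
    have h := congrFun hA i
    simp only [Matrix.mulVec, dotProduct, Matrix.of_apply, Pi.zero_apply] at h
    rw [← h]
    apply Finset.sum_subset (Finset.subset_univ T)
    intro j _ hj
    have hvj : v j = 0 := by
      by_contra hne
      exact hj ((hmemT j).mpr hne)
    rw [hvj, mul_zero]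
  obtain ⟨R, hRcard, hRspan⟩ := exists_rows T (fun i (j : ↥T) => ent f i j)
  refine ⟨T, R, h3, hk, hRcard.trans hk, mem_piece.mpr ⟨v, ?_, hrow, ?_⟩⟩
  · intro j
    exact (hmemT j).symm
  · intro i u hu
    have h := ann_of_span T (fun i (j : ↥T) => ent f i j) R u
      (by
        intro r hr
        rw [Finset.sum_coe_sort T (fun j => ent f r j * u j)]
        exact hu r hr) (hRspan i)
    rw [← Finset.sum_coe_sort T (fun j => ent f i j * u j)]
    exact h

/-- The bound for null vectors with at least three nonzero coordinates (parts (1) and (2) of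
`result`). -/
theorem three_to_k (n k : ℕ) :
    (Set.ncard {f : Sym2 (Fin n) → Bool |
        ∃ v : Fin n → ℝ, 3 ≤ (Function.support v).ncard ∧ (Function.support v).ncard ≤ k ∧
          (Matrix.of fun i j => if f s(i, j) then (1 : ℝ) else -1).mulVec v = 0} : ℝ)
      / Nat.card (Sym2 (Fin n) → Bool)
      ≤ (∑ t ∈ Finset.range (k + 1), (n.choose t : ℝ)) ^ 2 * (8 / 3) ^ (2 * k) * (3 / 8) ^ n
    ∧ (∑ t ∈ Finset.range (k + 1), (n.choose t : ℝ)) ^ 2 * (8 / 3) ^ (2 * k) * (3 / 8) ^ n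
      ≤ (3 * (n : ℝ) + 3) ^ (2 * k) * (3 / 8) ^ n := by
  classical
  have hS : (∑ t ∈ Finset.range (k + 1), (n.choose t : ℝ)) ≤ ((n : ℝ) + 1) ^ k := by
    have h := sum_choose_le n k
    have h' : ((∑ t ∈ Finset.range (k + 1), n.choose t : ℕ) : ℝ) ≤ (((n + 1) ^ k : ℕ) : ℝ) :=
      Nat.cast_le.mpr h
    push_cast at h'
    exact h'
  have hS0 : (0 : ℝ) ≤ ∑ t ∈ Finset.range (k + 1), (n.choose t : ℝ) :=
    Finset.sum_nonneg (fun t _ => Nat.cast_nonneg _)
  refine ⟨?_, ?_⟩
  · set Bad : Finset (Sym2 (Fin n) → Bool) := Finset.univ.filter (fun f =>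
      ∃ v : Fin n → ℝ, 3 ≤ (Function.support v).ncard ∧ (Function.support v).ncard ≤ k ∧
        (Matrix.of fun i j => if f s(i, j) then (1 : ℝ) else -1).mulVec v = 0) with hBad
    have hset : {f : Sym2 (Fin n) → Bool |
        ∃ v : Fin n → ℝ, 3 ≤ (Function.support v).ncard ∧ (Function.support v).ncard ≤ k ∧
          (Matrix.of fun i j => if f s(i, j) then (1 : ℝ) else -1).mulVec v = 0}
        = (Bad : Set (Sym2 (Fin n) → Bool)) := by
      ext f
      simp [hBad]
    rw [hset, Set.ncard_coe_finset]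
    set P : Finset (Finset (Fin n)) :=
      (Finset.univ : Finset (Finset (Fin n))).filter (fun T => T.card ≤ k) with hP
    set N : ℕ := Fintype.card (Sym2 (Fin n)) with hN
    set M : ℝ := 2 ^ N * ((8 / 3) ^ (2 * k) * (3 / 8) ^ n) with hM
    have hM0 : (0 : ℝ) ≤ M := by positivity
    have hPcard : (P.card : ℝ) ≤ ∑ t ∈ Finset.range (k + 1), (n.choose t : ℝ) := by
      have h := card_small_sets n k
      have h' : ((P.card : ℕ) : ℝ) ≤ ((∑ t ∈ Finset.range (k + 1), n.choose t : ℕ) : ℝ) :=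
        Nat.cast_le.mpr h
      push_cast at h'
      exact h'
    have hcov : Bad ⊆ (P.filter (fun T => 3 ≤ T.card)).biUnion
        (fun T => P.biUnion (fun R => piece T R)) := by
      intro f hf
      rw [hBad, Finset.mem_filter] at hf
      obtain ⟨v, h3, hk, hA⟩ := hf.2
      obtain ⟨T, R, hT3, hTk, hRk, hmem⟩ := cover3 k f v h3 hk hA
      rw [Finset.mem_biUnion]
      refine ⟨T, ?_, ?_⟩
      · rw [Finset.mem_filter, hP, Finset.mem_filter]
        exact ⟨⟨Finset.mem_univ _, hTk⟩, hT3⟩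
      · rw [Finset.mem_biUnion]
        refine ⟨R, ?_, hmem⟩
        rw [hP, Finset.mem_filter]
        exact ⟨Finset.mem_univ _, hRk⟩
    have hpiece : ∀ T ∈ P.filter (fun T => 3 ≤ T.card), ∀ R ∈ P,
        ((piece T R).card : ℝ) ≤ M := by
      intro T hT R hR
      rw [Finset.mem_filter, hP, Finset.mem_filter] at hT
      rw [hP, Finset.mem_filter] at hR
      have h1 := card_piece_lo T R hT.2
      have hu : (T ∪ R).card ≤ 2 * k := by
        have := Finset.card_union_le T R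
        omega
      set m : ℕ := n - (T ∪ R).card with hm
      have h2 : ((piece T R).card : ℝ) * 8 ^ m ≤ 2 ^ N * 3 ^ m := by
        have h' : (((piece T R).card * 8 ^ m : ℕ) : ℝ) ≤ ((2 ^ N * 3 ^ m : ℕ) : ℝ) :=
          Nat.cast_le.mpr h1
        push_cast at h'
        exact h'
      have h3 : ((piece T R).card : ℝ) ≤ 2 ^ N * (3 / 8) ^ m := by
        rw [div_pow, mul_div_assoc', le_div_iff₀ (by positivity)]
        exact h2
      have h4 : ((3 : ℝ) / 8) ^ m ≤ (8 / 3) ^ (2 * k) * (3 / 8) ^ n := by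
        have hle : n ≤ m + 2 * k := by omega
        have h5 : ((3 : ℝ) / 8) ^ (m + 2 * k) ≤ (3 / 8) ^ n :=
          pow_le_pow_of_le_one (by norm_num) (by norm_num) hle
        have h6 : ((8 : ℝ) / 3) ^ (2 * k) * (3 / 8) ^ (m + 2 * k) = (3 / 8) ^ m := by
          rw [pow_add, ← mul_assoc]
          have : ((8 : ℝ) / 3) ^ (2 * k) * (3 / 8) ^ (2 * k) = 1 := by
            rw [← mul_pow]
            norm_num
          calc ((8 : ℝ) / 3) ^ (2 * k) * (3 / 8) ^ m * (3 / 8) ^ (2 * k)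
              = (((8 : ℝ) / 3) ^ (2 * k) * (3 / 8) ^ (2 * k)) * (3 / 8) ^ m := by ring
            _ = (3 / 8) ^ m := by rw [this, one_mul]
        rw [← h6]
        exact mul_le_mul_of_nonneg_left h5 (by positivity)
      calc ((piece T R).card : ℝ) ≤ 2 ^ N * (3 / 8) ^ m := h3
        _ ≤ 2 ^ N * ((8 / 3) ^ (2 * k) * (3 / 8) ^ n) :=
            mul_le_mul_of_nonneg_left h4 (by positivity)
    have hBadcard : (Bad.card : ℝ) ≤
        (∑ t ∈ Finset.range (k + 1), (n.choose t : ℝ)) ^ 2 * M := by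
      have h1 : (Bad.card : ℝ) ≤ ∑ T ∈ P.filter (fun T => 3 ≤ T.card),
          ∑ R ∈ P, ((piece T R).card : ℝ) := by
        have h := (Finset.card_le_card hcov).trans Finset.card_biUnion_le
        have h2 : ∀ T ∈ P.filter (fun T => 3 ≤ T.card),
            (P.biUnion (fun R => piece T R)).card ≤ ∑ R ∈ P, (piece T R).card :=
          fun T _ => Finset.card_biUnion_le
        have h3 := h.trans (Finset.sum_le_sum h2)
        have h4 : ((Bad.card : ℕ) : ℝ) ≤ ((∑ T ∈ P.filter (fun T => 3 ≤ T.card),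
            ∑ R ∈ P, (piece T R).card : ℕ) : ℝ) := Nat.cast_le.mpr h3
        push_cast at h4
        exact h4
      have h2 : ∑ T ∈ P.filter (fun T => 3 ≤ T.card), ∑ R ∈ P, ((piece T R).card : ℝ)
          ≤ ∑ T ∈ P.filter (fun T => 3 ≤ T.card), ∑ R ∈ P, M :=
        Finset.sum_le_sum (fun T hT => Finset.sum_le_sum (fun R hR => hpiece T hT R hR))
      have h3 : ∑ T ∈ P.filter (fun T => 3 ≤ T.card), ∑ R ∈ P, M
          = ((P.filter (fun T => 3 ≤ T.card)).card : ℝ) * ((P.card : ℝ) * M) := by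
        simp only [Finset.sum_const, nsmul_eq_mul]
      have h4 : ((P.filter (fun T => 3 ≤ T.card)).card : ℝ) ≤ (P.card : ℝ) :=
        Nat.cast_le.mpr (Finset.card_le_card (Finset.filter_subset _ _))
      have hP0 : (0 : ℝ) ≤ (P.card : ℝ) := Nat.cast_nonneg _
      calc (Bad.card : ℝ) ≤ ((P.filter (fun T => 3 ≤ T.card)).card : ℝ) * ((P.card : ℝ) * M) := by
            rw [← h3]
            exact h1.trans h2
        _ ≤ (P.card : ℝ) * ((P.card : ℝ) * M) :=
            mul_le_mul_of_nonneg_right h4 (mul_nonneg hP0 hM0)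
        _ = (P.card : ℝ) ^ 2 * M := by ring
        _ ≤ (∑ t ∈ Finset.range (k + 1), (n.choose t : ℝ)) ^ 2 * M :=
            mul_le_mul_of_nonneg_right (pow_le_pow_left₀ hP0 hPcard 2) hM0
    have hcardN : (Nat.card (Sym2 (Fin n) → Bool) : ℝ) = 2 ^ N := by
      rw [Nat.card_eq_fintype_card, Fintype.card_fun, Fintype.card_bool]
      push_cast
      rfl
    rw [hcardN, div_le_iff₀ (by positivity)]
    calc (Bad.card : ℝ)
        ≤ (∑ t ∈ Finset.range (k + 1), (n.choose t : ℝ)) ^ 2 * M := hBadcard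
      _ = (∑ t ∈ Finset.range (k + 1), (n.choose t : ℝ)) ^ 2 * (8 / 3) ^ (2 * k)
            * (3 / 8) ^ n * 2 ^ N := by
          rw [hM]
          ring
  · apply mul_le_mul_of_nonneg_right _ (by positivity)
    have h1 : (∑ t ∈ Finset.range (k + 1), (n.choose t : ℝ)) ^ 2 ≤ (((n : ℝ) + 1) ^ k) ^ 2 :=
      pow_le_pow_left₀ hS0 hS 2
    have hn0 : (0 : ℝ) ≤ (n : ℝ) := Nat.cast_nonneg n
    calc (∑ t ∈ Finset.range (k + 1), (n.choose t : ℝ)) ^ 2 * (8 / 3) ^ (2 * k)
        ≤ (((n : ℝ) + 1) ^ k) ^ 2 * (8 / 3) ^ (2 * k) :=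
          mul_le_mul_of_nonneg_right h1 (by positivity)
      _ = (((n : ℝ) + 1) * (8 / 3)) ^ (2 * k) := by
          rw [mul_pow, ← pow_mul, mul_comm k 2]
      _ ≤ (3 * (n : ℝ) + 3) ^ (2 * k) := by
          apply pow_le_pow_left₀ (by positivity)
          nlinarith

end aux

/-- **Sparse null vectors of symmetric random sign matrices, refined.**  A function
`f : Sym2 (Fin n) → Bool` codes the symmetric `n × n` sign matrix with entries
`a i j = 1` if `f s(i, j)` and `-1` otherwise; the uniform distribution on such `f` is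
exactly the model with independent uniform signs on and above the diagonal.

(1), (2): the fraction of these matrices that have a null vector with at least `3` and at
most `k` nonzero coordinates is at most `(∑_{t ≤ k} C(n, t))^2 * (8/3)^(2k) * (3/8)^n`,
which is at most `(3n+3)^(2k) * (3/8)^n`.

(3): the fraction that have a nonzero null vector with at most `k` nonzero coordinates is at
most `16 (1 + n + C(n,2))^2 / 2^n + (3n+3)^(2k) * (3/8)^n`. -/
theorem result (n k : ℕ) :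
    ((Set.ncard {f : Sym2 (Fin n) → Bool |
        ∃ v : Fin n → ℝ, 3 ≤ (Function.support v).ncard ∧ (Function.support v).ncard ≤ k ∧
          (Matrix.of fun i j => if f s(i, j) then (1 : ℝ) else -1).mulVec v = 0} : ℝ)
      / Nat.card (Sym2 (Fin n) → Bool)
      ≤ (∑ t ∈ Finset.range (k + 1), (n.choose t : ℝ)) ^ 2 * (8 / 3) ^ (2 * k) * (3 / 8) ^ n)
    ∧ ((∑ t ∈ Finset.range (k + 1), (n.choose t : ℝ)) ^ 2 * (8 / 3) ^ (2 * k) * (3 / 8) ^ n
      ≤ (3 * (n : ℝ) + 3) ^ (2 * k) * (3 / 8) ^ n)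
    ∧ ((Set.ncard {f : Sym2 (Fin n) → Bool |
        ∃ v : Fin n → ℝ, v ≠ 0 ∧ (Function.support v).ncard ≤ k ∧
          (Matrix.of fun i j => if f s(i, j) then (1 : ℝ) else -1).mulVec v = 0} : ℝ)
      / Nat.card (Sym2 (Fin n) → Bool)
      ≤ 16 * (1 + (n : ℝ) + (n.choose 2 : ℝ)) ^ 2 / 2 ^ n
        + (3 * (n : ℝ) + 3) ^ (2 * k) * (3 / 8) ^ n) := by
  classical
  obtain ⟨hA, hB⟩ := three_to_k n k
  refine ⟨hA, hB, ?_⟩
  have h2 := (Vale.Agent.Results.P160.SparseKernel.result n 2).1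
  set S2 : Set (Sym2 (Fin n) → Bool) := {f : Sym2 (Fin n) → Bool |
        ∃ v : Fin n → ℝ, v ≠ 0 ∧ (Function.support v).ncard ≤ 2 ∧
          (Matrix.of fun i j => if f s(i, j) then (1 : ℝ) else -1).mulVec v = 0} with hS2
  set S3 : Set (Sym2 (Fin n) → Bool) := {f : Sym2 (Fin n) → Bool |
        ∃ v : Fin n → ℝ, 3 ≤ (Function.support v).ncard ∧ (Function.support v).ncard ≤ k ∧
          (Matrix.of fun i j => if f s(i, j) then (1 : ℝ) else -1).mulVec v = 0} with hS3
  set Sk : Set (Sym2 (Fin n) → Bool) := {f : Sym2 (Fin n) → Bool |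
        ∃ v : Fin n → ℝ, v ≠ 0 ∧ (Function.support v).ncard ≤ k ∧
          (Matrix.of fun i j => if f s(i, j) then (1 : ℝ) else -1).mulVec v = 0} with hSk
  have hsub : Sk ⊆ S2 ∪ S3 := by
    intro f hf
    obtain ⟨v, hv, hk, hAv⟩ := hf
    by_cases h : (Function.support v).ncard ≤ 2
    · exact Or.inl ⟨v, hv, h, hAv⟩
    · exact Or.inr ⟨v, by omega, hk, hAv⟩
  have hcard : (Sk.ncard : ℝ) ≤ (S2.ncard : ℝ) + (S3.ncard : ℝ) := by
    have h1 : Sk.ncard ≤ (S2 ∪ S3).ncard := Set.ncard_le_ncard hsub (Set.toFinite _)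
    have h3 : (S2 ∪ S3).ncard ≤ S2.ncard + S3.ncard := Set.ncard_union_le S2 S3
    have h4 : ((Sk.ncard : ℕ) : ℝ) ≤ ((S2.ncard + S3.ncard : ℕ) : ℝ) :=
      Nat.cast_le.mpr (h1.trans h3)
    push_cast at h4
    exact h4
  have hc0 : (0 : ℝ) ≤ (Nat.card (Sym2 (Fin n) → Bool) : ℝ) := Nat.cast_nonneg _
  have hsum2 : (∑ t ∈ Finset.range (2 + 1), (n.choose t : ℝ)) = 1 + (n : ℝ) + (n.choose 2 : ℝ) := by
    simp [Finset.sum_range_succ]
  rw [hsum2] at h2
  calc (Sk.ncard : ℝ) / Nat.card (Sym2 (Fin n) → Bool)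
      ≤ ((S2.ncard : ℝ) + (S3.ncard : ℝ)) / Nat.card (Sym2 (Fin n) → Bool) :=
        div_le_div_of_nonneg_right hcard hc0
    _ = (S2.ncard : ℝ) / Nat.card (Sym2 (Fin n) → Bool)
          + (S3.ncard : ℝ) / Nat.card (Sym2 (Fin n) → Bool) := add_div _ _ _
    _ ≤ (1 + (n : ℝ) + (n.choose 2 : ℝ)) ^ 2 * 4 ^ 2 / 2 ^ n
          + (3 * (n : ℝ) + 3) ^ (2 * k) * (3 / 8) ^ n := add_le_add h2 (hA.trans hB)
    _ = 16 * (1 + (n : ℝ) + (n.choose 2 : ℝ)) ^ 2 / 2 ^ n
          + (3 * (n : ℝ) + 3) ^ (2 * k) * (3 / 8) ^ n := by ring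

end Vale.Agent.Results.P160.SparseKernelLO
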