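import Vale.Agent.Results.P160.SparseKernelLO

set_option autoImplicit false

namespace Vale.Agent.Results.P160.SparseKernelSharp

open Finset
open Vale.Agent.Results.P160.SparseKernel

section aux

variable {n : ℕ}

/-- sign patterns whose columns `i` and `j` are equal (`b = false`) or opposite (`b = true`) -/
def colEq (i j : Fin n) (b : Bool) : Finset (Sym2 (Fin n) → Bool) :=
  Finset.univ.filter (fun f => ∀ m, f s(m, i) = xor (f s(m, j)) b)

theorem mem_colEq {i j : Fin n} {b : Bool} {f : Sym2 (Fin n) → Bool} :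
    f ∈ colEq i j b ↔ ∀ m, f s(m, i) = xor (f s(m, j)) b := by
  unfold colEq
  rw [Finset.mem_filter]
  simp

theorem colEq_symm (i j : Fin n) (b : Bool) : colEq i j b = colEq j i b := by
  ext f
  rw [mem_colEq, mem_colEq]
  constructor
  · intro h m
    have := h m
    rw [this]
    cases b <;> simp
  · intro h m
    have := h m
    rw [this]
    cases b <;> simp

theorem card_mul_le (D : Finset (Sym2 (Fin n))) (E : Finset (Sym2 (Fin n) → Bool))
    (h : ∀ f ∈ E, ∀ f' ∈ E, (∀ x, x ∉ D → f x = f' x) → f = f') :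
    E.card * 2 ^ D.card ≤ 2 ^ Fintype.card (Sym2 (Fin n)) := by
  classical
  have hinj : Set.InjOn (fun (f : Sym2 (Fin n) → Bool) (x : ↥(Dᶜ)) => f x)
      (E : Set (Sym2 (Fin n) → Bool)) := by
    intro f hf f' hf' hEq
    exact h f hf f' hf' (fun x hx => congrFun hEq ⟨x, Finset.mem_compl.mpr hx⟩)
  have h1 : E.card ≤ (Finset.univ : Finset (↥(Dᶜ) → Bool)).card :=
    Finset.card_le_card_of_injOn _ (fun _ _ => Finset.mem_univ _) hinj
  have h2 : (Finset.univ : Finset (↥(Dᶜ) → Bool)).card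
      = 2 ^ (Fintype.card (Sym2 (Fin n)) - D.card) := by
    rw [Finset.card_univ, Fintype.card_fun, Fintype.card_bool, Fintype.card_coe,
      Finset.card_compl]
  have h3 : D.card ≤ Fintype.card (Sym2 (Fin n)) := Finset.card_le_univ D
  calc E.card * 2 ^ D.card
      ≤ 2 ^ (Fintype.card (Sym2 (Fin n)) - D.card) * 2 ^ D.card :=
        Nat.mul_le_mul_right _ (h1.trans h2.le)
    _ = 2 ^ Fintype.card (Sym2 (Fin n)) := by
        rw [← pow_add, Nat.sub_add_cancel h3]

/-- the entries of column `i` -/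
def colD (i : Fin n) : Finset (Sym2 (Fin n)) := Finset.univ.image (fun m => s(m, i))

theorem mem_colD {i : Fin n} {x : Sym2 (Fin n)} : x ∈ colD i ↔ i ∈ x := by
  unfold colD
  rw [Finset.mem_image]
  induction x using Sym2.ind with
  | _ a c =>
    rw [Sym2.mem_iff]
    constructor
    · rintro ⟨m, -, h⟩
      rcases Sym2.eq_iff.mp h with ⟨-, h2⟩ | ⟨-, h2⟩
      · exact Or.inr h2
      · exact Or.inl h2
    · rintro (h | h)
      · exact ⟨c, Finset.mem_univ _, by rw [h, Sym2.eq_swap]⟩
      · exact ⟨a, Finset.mem_univ _, by rw [h]⟩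

theorem card_colD (i : Fin n) : (colD i).card = n := by
  unfold colD
  rw [Finset.card_image_of_injective, Finset.card_univ, Fintype.card_fin]
  intro m m' h
  rcases Sym2.eq_iff.mp h with ⟨h1, -⟩ | ⟨h1, h2⟩
  · exact h1
  · rw [h1, h2]

theorem card_colEq_le (i j : Fin n) (hij : i ≠ j) (b : Bool) :
    (colEq i j b).card * 2 ^ n ≤ 2 ^ Fintype.card (Sym2 (Fin n)) := by
  classical
  have key := card_mul_le (colD i) (colEq i j b) (by
    intro f hf f' hf' hag
    rw [mem_colEq] at hf hf'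
    have st1 : ∀ m, m ≠ i → f s(m, i) = f' s(m, i) := by
      intro m hm
      rw [hf m, hf' m, hag s(m, j) (by
        rw [mem_colD, Sym2.mem_iff]
        rintro (h | h)
        · exact hm h.symm
        · exact hij h)]
    have st2 : f s(i, i) = f' s(i, i) := by
      rw [hf i, hf' i]
      have : f s(i, j) = f' s(i, j) := by
        rw [Sym2.eq_swap]
        exact st1 j hij.symm
      rw [this]
    funext x
    by_cases hx : x ∈ colD i
    · unfold colD at hx
      obtain ⟨m, -, rfl⟩ := Finset.mem_image.mp hx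
      by_cases hm : m = i
      · subst hm
        exact st2
      · exact st1 m hm
    · exact hag x hx)
  rw [card_colD] at key
  exact key

theorem colEq_disjoint (i j : Fin n) (b : Bool) :
    colEq i j b ∩ colEq i j (!b) = ∅ := by
  rw [Finset.eq_empty_iff_forall_notMem]
  intro f hf
  rw [Finset.mem_inter, mem_colEq, mem_colEq] at hf
  have h1 := hf.1 i
  have h2 := hf.2 i
  rw [h1] at h2
  revert h2
  cases b <;> cases f s(i, j) <;> simp

theorem card_colEq_ge (i j : Fin n) (hij : i ≠ j) (b : Bool) :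
    2 ^ Fintype.card (Sym2 (Fin n)) ≤ (colEq i j b).card * 2 ^ n := by
  classical
  let σ : Fin n → Fin n := fun m => if m = i then j else m
  let Φ : (Sym2 (Fin n) → Bool) → (Sym2 (Fin n) → Bool) := fun g x =>
    xor (g (Sym2.map σ x)) (b && decide (i ∈ x) && !decide (x = s(i, i)))
  have hσi : σ i = j := by simp [σ]
  have hσ : ∀ m, m ≠ i → σ m = m := by
    intro m hm
    simp [σ, hm]
  have hΦmem : ∀ g, Φ g ∈ colEq i j b := by
    intro g
    rw [mem_colEq]
    intro m
    by_cases hmi : m = i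
    · subst hmi
      have e1 : Φ g s(m, m) = g s(j, j) := by
        simp [Φ, hσi]
      have e2 : Φ g s(m, j) = xor (g s(j, j)) b := by
        have hne : ¬ (s(m, j) = s(m, m)) := by
          intro h
          rcases Sym2.eq_iff.mp h with ⟨-, h2⟩ | ⟨-, h2⟩
          · exact hij h2.symm
          · exact hij h2.symm
        have hσj : σ j = j := hσ j (fun h => hij h.symm)
        simp [Φ, hσi, hσj, hne]
      rw [e1, e2]
      cases b <;> simp
    · have hσm : σ m = m := hσ m hmi
      have e1 : Φ g s(m, i) = xor (g s(m, j)) b := by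
        have hne : ¬ (s(m, i) = s(i, i)) := by
          intro h
          rcases Sym2.eq_iff.mp h with ⟨h1, -⟩ | ⟨h1, -⟩
          · exact hmi h1
          · exact hmi h1
        simp [Φ, hσi, hσm, hne]
      have e2 : Φ g s(m, j) = g s(m, j) := by
        have hσj : σ j = j := hσ j (fun h => hij h.symm)
        have hnm : ¬ (i ∈ s(m, j)) := by
          rw [Sym2.mem_iff]
          rintro (h | h)
          · exact hmi h.symm
          · exact hij h
        simp [Φ, hσm, hσj, hnm]
      rw [e1, e2]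
  have hΦfix : ∀ g x, i ∉ x → Φ g x = g x := by
    intro g x hx
    induction x using Sym2.ind with
    | _ a c =>
      have ha : a ≠ i := fun h => hx (by rw [h]; exact Sym2.mem_mk_left _ _)
      have hc : c ≠ i := fun h => hx (by rw [h]; exact Sym2.mem_mk_right _ _)
      simp [Φ, hσ a ha, hσ c hc, hx]
  let ext : (↥((colD i)ᶜ) → Bool) → (Sym2 (Fin n) → Bool) :=
    fun h x => if hx : x ∈ (colD i)ᶜ then h ⟨x, hx⟩ else false
  have hinj : Function.Injective (fun h : ↥((colD i)ᶜ) → Bool => Φ (ext h)) := by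
    intro h h' hEq
    funext x
    have hxD : (x : Sym2 (Fin n)) ∉ colD i := Finset.mem_compl.mp x.2
    have hx : i ∉ (x : Sym2 (Fin n)) := fun h => hxD (mem_colD.mpr h)
    have e := congrFun hEq (x : Sym2 (Fin n))
    simp only at e
    rw [hΦfix _ _ hx, hΦfix _ _ hx] at e
    have e1 : ∀ h : ↥((colD i)ᶜ) → Bool, ext h (x : Sym2 (Fin n)) = h x := by
      intro h
      simp only [ext]
      rw [dif_pos x.2]
    rw [e1, e1] at e
    exact e
  have h1 : (Finset.univ : Finset (↥((colD i)ᶜ) → Bool)).card ≤ (colEq i j b).card :=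
    Finset.card_le_card_of_injOn (fun h : ↥((colD i)ᶜ) → Bool => Φ (ext h))
      (fun h _ => hΦmem _) hinj.injOn
  have h2 : (Finset.univ : Finset (↥((colD i)ᶜ) → Bool)).card
      = 2 ^ (Fintype.card (Sym2 (Fin n)) - (colD i).card) := by
    rw [Finset.card_univ, Fintype.card_fun, Fintype.card_bool, Fintype.card_coe,
      Finset.card_compl]
  have h3 : (colD i).card ≤ Fintype.card (Sym2 (Fin n)) := Finset.card_le_univ _
  have h4 : (colD i).card = n := card_colD i
  rw [h4] at h2 h3
  calc 2 ^ Fintype.card (Sym2 (Fin n))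
      = 2 ^ (Fintype.card (Sym2 (Fin n)) - n) * 2 ^ n := by
        rw [← pow_add, Nat.sub_add_cancel h3]
    _ ≤ (colEq i j b).card * 2 ^ n := Nat.mul_le_mul_right _ (h2 ▸ h1)

theorem card_colEq (i j : Fin n) (hij : i ≠ j) (b : Bool) :
    (colEq i j b).card * 2 ^ n = 2 ^ Fintype.card (Sym2 (Fin n)) :=
  le_antisymm (card_colEq_le i j hij b) (card_colEq_ge i j hij b)

theorem card_two_le (c1 c1' c2 c2' : Fin n) (b b' : Bool)
    (E : Finset (Sym2 (Fin n) → Bool))
    (hE1 : ∀ f ∈ E, ∀ m, f s(m, c1) = xor (f s(m, c1')) b)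
    (hE2 : ∀ f ∈ E, ∀ m, f s(m, c2) = xor (f s(m, c2')) b')
    (h12 : c1 ≠ c2) (h12' : c1 ≠ c2') (h21' : c2 ≠ c1') (h11' : c1 ≠ c1') (h22' : c2 ≠ c2') :
    E.card * 2 ^ (2 * (n - 4)) ≤ 2 ^ Fintype.card (Sym2 (Fin n)) := by
  classical
  set Q : Finset (Fin n) := {c1, c1', c2, c2'} with hQ
  have hQ1 : c1 ∈ Q := by simp [hQ]
  have hQ1' : c1' ∈ Q := by simp [hQ]
  have hQ2 : c2 ∈ Q := by simp [hQ]
  have hQ2' : c2' ∈ Q := by simp [hQ]
  have hQcard : Q.card ≤ 4 := Finset.card_le_four
  set D1 : Finset (Sym2 (Fin n)) := (Qᶜ).image (fun m => s(m, c1)) with hD1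
  set D2 : Finset (Sym2 (Fin n)) := (Qᶜ).image (fun m => s(m, c2)) with hD2
  have memD1 : ∀ m l, m ∉ Q → (s(m, l) ∈ D1 ↔ l = c1) := by
    intro m l hm
    rw [hD1, Finset.mem_image]
    constructor
    · rintro ⟨m', hm', h⟩
      rcases Sym2.eq_iff.mp h with ⟨-, h2⟩ | ⟨-, h2⟩
      · exact h2.symm
      · exact absurd (h2 ▸ hQ1) hm
    · rintro rfl
      exact ⟨m, Finset.mem_compl.mpr hm, rfl⟩
  have memD2 : ∀ m l, m ∉ Q → (s(m, l) ∈ D2 ↔ l = c2) := by
    intro m l hm
    rw [hD2, Finset.mem_image]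
    constructor
    · rintro ⟨m', hm', h⟩
      rcases Sym2.eq_iff.mp h with ⟨-, h2⟩ | ⟨-, h2⟩
      · exact h2.symm
      · exact absurd (h2 ▸ hQ2) hm
    · rintro rfl
      exact ⟨m, Finset.mem_compl.mpr hm, rfl⟩
  have cD1 : D1.card = n - Q.card := by
    rw [hD1, Finset.card_image_of_injOn, Finset.card_compl, Fintype.card_fin]
    intro m hm m' hm' h
    rcases Sym2.eq_iff.mp h with ⟨h1, -⟩ | ⟨h1, -⟩
    · exact h1
    · exact absurd (h1 ▸ hQ1) (Finset.mem_compl.mp (Finset.mem_coe.mp hm))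
  have cD2 : D2.card = n - Q.card := by
    rw [hD2, Finset.card_image_of_injOn, Finset.card_compl, Fintype.card_fin]
    intro m hm m' hm' h
    rcases Sym2.eq_iff.mp h with ⟨h1, -⟩ | ⟨h1, -⟩
    · exact h1
    · exact absurd (h1 ▸ hQ2) (Finset.mem_compl.mp (Finset.mem_coe.mp hm))
  have hdisj : Disjoint D1 D2 := by
    rw [Finset.disjoint_left]
    intro x hx1 hx2
    rw [hD1, Finset.mem_image] at hx1
    obtain ⟨m, hm, rfl⟩ := hx1
    have hm' : m ∉ Q := Finset.mem_compl.mp hm
    exact h12 ((memD2 m c1 hm').mp hx2)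
  have cD : (D1 ∪ D2).card = 2 * (n - Q.card) := by
    rw [Finset.card_union_of_disjoint hdisj, cD1, cD2]
    ring
  have key := card_mul_le (D1 ∪ D2) E (by
    intro f hf f' hf' hag
    funext x
    by_cases hx : x ∈ D1 ∪ D2
    · rcases Finset.mem_union.mp hx with hx1 | hx2
      · rw [hD1, Finset.mem_image] at hx1
        obtain ⟨m, hm, rfl⟩ := hx1
        have hm' : m ∉ Q := Finset.mem_compl.mp hm
        rw [hE1 f hf m, hE1 f' hf' m, hag s(m, c1') (by
          rw [Finset.mem_union, memD1 m c1' hm', memD2 m c1' hm']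
          rintro (h | h)
          · exact h11' h.symm
          · exact h21' h.symm)]
      · rw [hD2, Finset.mem_image] at hx2
        obtain ⟨m, hm, rfl⟩ := hx2
        have hm' : m ∉ Q := Finset.mem_compl.mp hm
        rw [hE2 f hf m, hE2 f' hf' m, hag s(m, c2') (by
          rw [Finset.mem_union, memD1 m c2' hm', memD2 m c2' hm']
          rintro (h | h)
          · exact h12' h.symm
          · exact h22' h.symm)]
    · exact hag x hx)
  have hle : 2 * (n - 4) ≤ (D1 ∪ D2).card := by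
    rw [cD]
    omega
  calc E.card * 2 ^ (2 * (n - 4)) ≤ E.card * 2 ^ (D1 ∪ D2).card :=
        Nat.mul_le_mul_left _ (Nat.pow_le_pow_right (by norm_num) hle)
    _ ≤ 2 ^ Fintype.card (Sym2 (Fin n)) := key

/-- the event attached to the ordered pair `x = (i, j)`: columns `i`, `j` opposite if `i < j`,
equal if `j < i` -/
def pairEv (x : Fin n × Fin n) : Finset (Sym2 (Fin n) → Bool) :=
  colEq x.1 x.2 (decide (x.1 < x.2))

theorem card_pairEv_inter (x y : Fin n × Fin n) (hx : x.1 ≠ x.2) (hy : y.1 ≠ y.2)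
    (hxy : x ≠ y) :
    (pairEv x ∩ pairEv y).card * 2 ^ (2 * (n - 4)) ≤ 2 ^ Fintype.card (Sym2 (Fin n)) := by
  classical
  obtain ⟨i, j⟩ := x
  obtain ⟨k, l⟩ := y
  simp only at hx hy
  have hxy' : ¬ (i = k ∧ j = l) := by
    rintro ⟨h1, h2⟩
    exact hxy (by rw [h1, h2])
  have F1 : ∀ f ∈ pairEv (i, j) ∩ pairEv (k, l), ∀ m,
      f s(m, i) = xor (f s(m, j)) (decide (i < j)) := by
    intro f hf m
    exact mem_colEq.mp (Finset.mem_inter.mp hf).1 m
  have F1' : ∀ f ∈ pairEv (i, j) ∩ pairEv (k, l), ∀ m,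
      f s(m, j) = xor (f s(m, i)) (decide (i < j)) := by
    intro f hf m
    have h := (Finset.mem_inter.mp hf).1
    unfold pairEv at h
    rw [colEq_symm] at h
    exact mem_colEq.mp h m
  have F2 : ∀ f ∈ pairEv (i, j) ∩ pairEv (k, l), ∀ m,
      f s(m, k) = xor (f s(m, l)) (decide (k < l)) := by
    intro f hf m
    exact mem_colEq.mp (Finset.mem_inter.mp hf).2 m
  have F2' : ∀ f ∈ pairEv (i, j) ∩ pairEv (k, l), ∀ m,
      f s(m, l) = xor (f s(m, k)) (decide (k < l)) := by
    intro f hf m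
    have h := (Finset.mem_inter.mp hf).2
    unfold pairEv at h
    rw [colEq_symm] at h
    exact mem_colEq.mp h m
  by_cases h1 : i = k
  · -- then j ≠ l
    have h4 : j ≠ l := fun h => hxy' ⟨h1, h⟩
    -- c1 = j, c1' = i, c2 = l, c2' = k
    exact card_two_le j i l k _ _ _ F1' F2' h4 (fun h => hx (h1.trans h.symm))
      (fun h => hy (h1 ▸ h).symm |> fun e => e) (Ne.symm hx) (Ne.symm hy)
  · by_cases h2 : i = l
    · by_cases h3 : j = k
      · -- swapped pair: empty intersection
        have hempty : pairEv (i, j) ∩ pairEv (k, l) = ∅ := by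
          subst h2 h3
          unfold pairEv
          simp only
          rw [colEq_symm j i]
          have hd : decide (j < i) = !decide (i < j) := by
            rcases lt_or_gt_of_ne hx with h | h
            · simp [h, not_lt.mpr h.le]
            · simp [h, not_lt.mpr h.le]
          rw [hd]
          exact colEq_disjoint i j _
        rw [hempty]
        simp
      · -- c1 = j, c1' = i, c2 = k, c2' = l
        exact card_two_le j i k l _ _ _ F1' F2 h3 (fun h => hx (h2.trans h.symm))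
          (fun h => h1 h.symm) (Ne.symm hx) hy
    · by_cases h3 : j = k
      · -- c1 = i, c1' = j, c2 = l, c2' = k
        exact card_two_le i j l k _ _ _ F1 F2' h2 h1
          (fun h => hy (h3 ▸ h).symm |> fun e => e) hx (Ne.symm hy)
      · by_cases h4 : j = l
        · -- c1 = i, c1' = j, c2 = k, c2' = l
          exact card_two_le i j k l _ _ _ F1 F2 h1 h2 (fun h => h3 h.symm) hx hy
        · exact card_two_le i j k l _ _ _ F1 F2 h1 h2 (fun h => h3 h.symm) hx hy

theorem cover2 (f : Sym2 (Fin n) → Bool) (v : Fin n → ℝ) (hv : v ≠ 0)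
    (hk : (Function.support v).ncard ≤ 2)
    (hA : (Matrix.of fun i j => if f s(i, j) then (1 : ℝ) else -1).mulVec v = 0) :
    ∃ x : Fin n × Fin n, x.1 ≠ x.2 ∧ f ∈ pairEv x := by
  classical
  set T : Finset (Fin n) := Finset.univ.filter (fun j => v j ≠ 0) with hT
  have hmemT : ∀ j, j ∈ T ↔ v j ≠ 0 := by
    intro j
    rw [hT, Finset.mem_filter]
    simp
  have hTne : T.Nonempty := by
    by_contra h
    apply hv
    funext j
    by_contra hj
    exact h ⟨j, (hmemT j).mpr hj⟩
  have hTcard : T.card ≤ 2 := by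
    have hsupp : Function.support v = (T : Set (Fin n)) := by
      ext j
      simp [hmemT]
    rw [hsupp, Set.ncard_coe_finset] at hk
    exact hk
  have hrow : ∀ i, ∑ j ∈ T, ent f i j * v j = 0 := by
    intro i
    have h := congrFun hA i
    simp only [Matrix.mulVec, dotProduct, Matrix.of_apply, Pi.zero_apply] at h
    rw [← h]
    apply Finset.sum_subset (Finset.subset_univ T)
    intro j _ hj
    have hvj : v j = 0 := by
      by_contra hne
      exact hj ((hmemT j).mpr hne)
    rw [hvj, mul_zero]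
  have hent : ∀ i j, ent f i j = 1 ∨ ent f i j = -1 := by
    intro i j
    unfold ent
    split_ifs
    · exact Or.inl rfl
    · exact Or.inr rfl
  have hT1 : T.card = 1 ∨ T.card = 2 := by
    have := hTne.card_pos
    omega
  rcases hT1 with h1 | h2
  · exfalso
    obtain ⟨j, hj⟩ := Finset.card_eq_one.mp h1
    have h := hrow j
    rw [hj, Finset.sum_singleton] at h
    have hvj : v j ≠ 0 := (hmemT j).mp (by rw [hj]; exact Finset.mem_singleton_self j)
    rcases hent j j with e | e
    · rw [e] at h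
      exact hvj (by linarith)
    · rw [e] at h
      exact hvj (by linarith)
  · obtain ⟨i, j, hij, hTij⟩ := Finset.card_eq_two.mp h2
    have hvi : v i ≠ 0 := (hmemT i).mp (by rw [hTij]; simp)
    have hvj : v j ≠ 0 := (hmemT j).mp (by rw [hTij]; simp)
    have hrow' : ∀ m, ent f m i * v i + ent f m j * v j = 0 := by
      intro m
      have h := hrow m
      rw [hTij, Finset.sum_pair hij] at h
      exact h
    have hcase : v j = v i ∨ v j = - v i := by
      have h := hrow' i
      rcases hent i i with e | e <;> rcases hent i j with e' | e' <;> rw [e, e'] at h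
      · right; linarith
      · left; linarith
      · left; linarith
      · right; linarith
    rcases hcase with hc | hc
    · -- opposite columns
      have hopp : ∀ m, ent f m i = - ent f m j := by
        intro m
        have h := hrow' m
        rw [hc] at h
        have h' : (ent f m i + ent f m j) * v i = 0 := by linarith
        rcases mul_eq_zero.mp h' with h'' | h''
        · linarith
        · exact absurd h'' hvi
      have hmem : f ∈ colEq i j true := by
        rw [mem_colEq]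
        intro m
        have h := hopp m
        unfold ent at h
        revert h
        cases f s(m, i) <;> cases f s(m, j) <;> simp <;> norm_num
      rcases lt_or_gt_of_ne hij with hlt | hgt
      · refine ⟨(i, j), hij, ?_⟩
        unfold pairEv
        simpa [hlt] using hmem
      · refine ⟨(j, i), hij.symm, ?_⟩
        unfold pairEv
        rw [colEq_symm]
        simpa [hgt] using hmem
    · -- equal columns
      have heq : ∀ m, ent f m i = ent f m j := by
        intro m
        have h := hrow' m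
        rw [hc] at h
        have h' : (ent f m i - ent f m j) * v i = 0 := by linarith
        rcases mul_eq_zero.mp h' with h'' | h''
        · linarith
        · exact absurd h'' hvi
      have hmem : f ∈ colEq i j false := by
        rw [mem_colEq]
        intro m
        have h := heq m
        unfold ent at h
        revert h
        cases f s(m, i) <;> cases f s(m, j) <;> simp <;> norm_num
      rcases lt_or_gt_of_ne hij with hlt | hgt
      · refine ⟨(j, i), hij.symm, ?_⟩
        unfold pairEv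
        rw [colEq_symm]
        simpa [not_lt.mpr hlt.le] using hmem
      · refine ⟨(i, j), hij, ?_⟩
        unfold pairEv
        simpa [not_lt.mpr hgt.le] using hmem

theorem null_of_colEq (f : Sym2 (Fin n) → Bool) (i j : Fin n) (hij : i ≠ j) (b : Bool)
    (hf : f ∈ colEq i j b) :
    ∃ v : Fin n → ℝ, v ≠ 0 ∧ (Function.support v).ncard ≤ 2 ∧
      (Matrix.of fun i j => if f s(i, j) then (1 : ℝ) else -1).mulVec v = 0 := by
  classical
  set c : ℝ := if b then 1 else -1 with hc
  refine ⟨fun l => if l = i then 1 else if l = j then c else 0, ?_, ?_, ?_⟩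
  · intro h
    have h' := congrFun h i
    simp at h'
  · have hsub : Function.support (fun l => if l = i then (1 : ℝ) else if l = j then c else 0)
        ⊆ (({i, j} : Finset (Fin n)) : Set (Fin n)) := by
      intro l hl
      rw [Function.mem_support] at hl
      by_contra hne
      rw [Finset.mem_coe, Finset.mem_insert, Finset.mem_singleton, not_or] at hne
      apply hl
      simp [hne.1, hne.2]
    calc (Function.support (fun l => if l = i then (1 : ℝ) else if l = j then c else 0)).ncard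
        ≤ ((({i, j} : Finset (Fin n)) : Set (Fin n))).ncard :=
          Set.ncard_le_ncard hsub (Finset.finite_toSet _)
      _ = ({i, j} : Finset (Fin n)).card := Set.ncard_coe_finset _
      _ ≤ 2 := Finset.card_le_two
  · funext m
    simp only [Matrix.mulVec, dotProduct, Matrix.of_apply, Pi.zero_apply]
    rw [Fintype.sum_eq_add i j hij (by
      intro l hl
      simp [hl.1, hl.2])]
    have h := mem_colEq.mp hf m
    simp only [if_true, hij.symm, if_false, mul_one]
    rw [h, hc]
    cases b <;> cases f s(m, j) <;> simp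

theorem card_union_upper :
    (((Finset.univ : Finset (Fin n)).offDiag).biUnion pairEv).card * 2 ^ n
      ≤ (n * n - n) * 2 ^ Fintype.card (Sym2 (Fin n)) := by
  classical
  set I : Finset (Fin n × Fin n) := (Finset.univ : Finset (Fin n)).offDiag with hI
  have hIcard : I.card = n * n - n := by
    rw [hI, Finset.offDiag_card, Finset.card_univ, Fintype.card_fin]
  calc (I.biUnion pairEv).card * 2 ^ n ≤ (∑ x ∈ I, (pairEv x).card) * 2 ^ n :=
        Nat.mul_le_mul_right _ Finset.card_biUnion_le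
    _ = ∑ x ∈ I, (pairEv x).card * 2 ^ n := Finset.sum_mul _ _ _
    _ = ∑ x ∈ I, 2 ^ Fintype.card (Sym2 (Fin n)) :=
        Finset.sum_congr rfl (fun x hx => card_colEq x.1 x.2 (Finset.mem_offDiag.mp hx).2.2 _)
    _ = (n * n - n) * 2 ^ Fintype.card (Sym2 (Fin n)) := by
        rw [Finset.sum_const, hIcard, smul_eq_mul]

theorem card_union_lower (I : Finset (Fin n × Fin n)) :
    ∑ x ∈ I, (pairEv x).card ≤ (I.biUnion pairEv).card
      + ∑ x ∈ I, ∑ y ∈ I.erase x, (pairEv x ∩ pairEv y).card := by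
  classical
  set E' : Fin n × Fin n → Finset (Sym2 (Fin n) → Bool) :=
    fun x => pairEv x \ (I.erase x).biUnion pairEv with hE'
  have hdisj : (I : Set (Fin n × Fin n)).PairwiseDisjoint E' := by
    intro x hx y hy hxy
    rw [Function.onFun, Finset.disjoint_left]
    intro f hfx hfy
    rw [hE', Finset.mem_sdiff] at hfx hfy
    apply hfy.2
    rw [Finset.mem_biUnion]
    exact ⟨x, Finset.mem_erase.mpr ⟨hxy, hx⟩, hfx.1⟩
  have h1 : ∑ x ∈ I, (E' x).card = (I.biUnion E').card := (Finset.card_biUnion hdisj).symm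
  have h2 : (I.biUnion E').card ≤ (I.biUnion pairEv).card := by
    apply Finset.card_le_card
    intro f hf
    rw [Finset.mem_biUnion] at hf ⊢
    obtain ⟨x, hx, hfx⟩ := hf
    exact ⟨x, hx, (Finset.mem_sdiff.mp hfx).1⟩
  have h3 : ∀ x ∈ I, (pairEv x).card
      ≤ (E' x).card + ∑ y ∈ I.erase x, (pairEv x ∩ pairEv y).card := by
    intro x hx
    have hsub : pairEv x ⊆ E' x ∪ (I.erase x).biUnion (fun y => pairEv x ∩ pairEv y) := by
      intro f hf
      by_cases hmem : f ∈ (I.erase x).biUnion pairEv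
      · rw [Finset.mem_biUnion] at hmem
        obtain ⟨y, hy, hfy⟩ := hmem
        exact Finset.mem_union_right _
          (Finset.mem_biUnion.mpr ⟨y, hy, Finset.mem_inter.mpr ⟨hf, hfy⟩⟩)
      · exact Finset.mem_union_left _ (Finset.mem_sdiff.mpr ⟨hf, hmem⟩)
    calc (pairEv x).card
        ≤ (E' x ∪ (I.erase x).biUnion (fun y => pairEv x ∩ pairEv y)).card :=
          Finset.card_le_card hsub
      _ ≤ (E' x).card + ((I.erase x).biUnion (fun y => pairEv x ∩ pairEv y)).card :=
          Finset.card_union_le _ _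
      _ ≤ (E' x).card + ∑ y ∈ I.erase x, (pairEv x ∩ pairEv y).card :=
          Nat.add_le_add_left Finset.card_biUnion_le _
  calc ∑ x ∈ I, (pairEv x).card
      ≤ ∑ x ∈ I, ((E' x).card + ∑ y ∈ I.erase x, (pairEv x ∩ pairEv y).card) :=
        Finset.sum_le_sum h3
    _ = ∑ x ∈ I, (E' x).card + ∑ x ∈ I, ∑ y ∈ I.erase x, (pairEv x ∩ pairEv y).card :=
        Finset.sum_add_distrib
    _ ≤ (I.biUnion pairEv).card
        + ∑ x ∈ I, ∑ y ∈ I.erase x, (pairEv x ∩ pairEv y).card := by
        rw [h1]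
        exact Nat.add_le_add_right h2 _

theorem four_pow_le (n : ℕ) : 4 ^ n ≤ 256 * 2 ^ (2 * (n - 4)) := by
  by_cases h : 4 ≤ n
  · obtain ⟨m, rfl⟩ := Nat.exists_eq_add_of_le h
    have e : 4 + m - 4 = m := by omega
    rw [e, pow_add, pow_mul]
    norm_num
  · have e : n - 4 = 0 := by omega
    rw [e]
    have hn : n < 4 := by omega
    interval_cases n <;> norm_num

theorem inter_real (x y : Fin n × Fin n) (hx : x.1 ≠ x.2) (hy : y.1 ≠ y.2) (hxy : x ≠ y) :
    ((pairEv x ∩ pairEv y).card : ℝ) ≤ 256 * 2 ^ Fintype.card (Sym2 (Fin n)) / 4 ^ n := by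
  have h := card_pairEv_inter x y hx hy hxy
  have h4 := four_pow_le n
  rw [le_div_iff₀ (by positivity)]
  have h' : (((pairEv x ∩ pairEv y).card * 4 ^ n : ℕ) : ℝ)
      ≤ ((256 * 2 ^ Fintype.card (Sym2 (Fin n)) : ℕ) : ℝ) := by
    apply Nat.cast_le.mpr
    calc (pairEv x ∩ pairEv y).card * 4 ^ n
        ≤ (pairEv x ∩ pairEv y).card * (256 * 2 ^ (2 * (n - 4))) := Nat.mul_le_mul_left _ h4
      _ = 256 * ((pairEv x ∩ pairEv y).card * 2 ^ (2 * (n - 4))) := by ring
      _ ≤ 256 * 2 ^ Fintype.card (Sym2 (Fin n)) := Nat.mul_le_mul_left _ h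
  push_cast at h'
  exact h'

theorem pairEv_real (x : Fin n × Fin n) (hx : x.1 ≠ x.2) :
    ((pairEv x).card : ℝ) = 2 ^ Fintype.card (Sym2 (Fin n)) / 2 ^ n := by
  have h := card_colEq x.1 x.2 hx (decide (x.1 < x.2))
  rw [eq_div_iff (by positivity)]
  have h' : (((pairEv x).card * 2 ^ n : ℕ) : ℝ)
      = ((2 ^ Fintype.card (Sym2 (Fin n)) : ℕ) : ℝ) := by
    unfold pairEv
    rw [h]
  push_cast at h'
  exact h'

theorem union_upper_real (n : ℕ) :
    ((((Finset.univ : Finset (Fin n)).offDiag).biUnion pairEv).card : ℝ)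
        / 2 ^ Fintype.card (Sym2 (Fin n)) ≤ (n : ℝ) * ((n : ℝ) - 1) / 2 ^ n := by
  have h := card_union_upper (n := n)
  have h' : (((((Finset.univ : Finset (Fin n)).offDiag).biUnion pairEv).card * 2 ^ n : ℕ) : ℝ)
      ≤ (((n * n - n) * 2 ^ Fintype.card (Sym2 (Fin n)) : ℕ) : ℝ) := Nat.cast_le.mpr h
  rw [Nat.cast_mul, Nat.cast_mul, Nat.cast_sub (Nat.le_mul_self n)] at h'
  push_cast at h'
  rw [div_le_div_iff₀ (by positivity) (by positivity)]
  calc ((((Finset.univ : Finset (Fin n)).offDiag).biUnion pairEv).card : ℝ) * 2 ^ n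
      ≤ ((n : ℝ) * n - n) * 2 ^ Fintype.card (Sym2 (Fin n)) := h'
    _ = (n : ℝ) * ((n : ℝ) - 1) * 2 ^ Fintype.card (Sym2 (Fin n)) := by ring

theorem union_lower_real (n : ℕ) :
    (n : ℝ) * ((n : ℝ) - 1) / 2 ^ n - 256 * ((n : ℝ) * ((n : ℝ) - 1)) ^ 2 / 4 ^ n
      ≤ ((((Finset.univ : Finset (Fin n)).offDiag).biUnion pairEv).card : ℝ)
        / 2 ^ Fintype.card (Sym2 (Fin n)) := by
  classical
  set I : Finset (Fin n × Fin n) := (Finset.univ : Finset (Fin n)).offDiag with hI
  set a : ℝ := 2 ^ Fintype.card (Sym2 (Fin n)) with ha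
  have ha0 : 0 < a := by positivity
  have hIcard : (I.card : ℝ) = (n : ℝ) * ((n : ℝ) - 1) := by
    rw [hI, Finset.offDiag_card, Finset.card_univ, Fintype.card_fin,
      Nat.cast_sub (Nat.le_mul_self n)]
    push_cast
    ring
  have hmemI : ∀ x ∈ I, x.1 ≠ x.2 := fun x hx => (Finset.mem_offDiag.mp hx).2.2
  have h := card_union_lower I
  have hR : ((∑ x ∈ I, (pairEv x).card : ℕ) : ℝ) ≤ (((I.biUnion pairEv).card
      + ∑ x ∈ I, ∑ y ∈ I.erase x, (pairEv x ∩ pairEv y).card : ℕ) : ℝ) := Nat.cast_le.mpr h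
  push_cast at hR
  have h1 : ∑ x ∈ I, ((pairEv x).card : ℝ) = (I.card : ℝ) * (a / 2 ^ n) := by
    rw [Finset.sum_congr rfl (fun x hx => pairEv_real x (hmemI x hx)), Finset.sum_const,
      nsmul_eq_mul]
  have h2 : ∑ x ∈ I, ∑ y ∈ I.erase x, ((pairEv x ∩ pairEv y).card : ℝ)
      ≤ (I.card : ℝ) * ((I.card : ℝ) * (256 * a / 4 ^ n)) := by
    calc ∑ x ∈ I, ∑ y ∈ I.erase x, ((pairEv x ∩ pairEv y).card : ℝ)
        ≤ ∑ x ∈ I, ∑ y ∈ I.erase x, (256 * a / 4 ^ n : ℝ) :=
          Finset.sum_le_sum (fun x hx => Finset.sum_le_sum (fun y hy =>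
            inter_real x y (hmemI x hx) (hmemI y (Finset.mem_of_mem_erase hy))
              (Finset.ne_of_mem_erase hy).symm))
      _ = ∑ x ∈ I, ((I.erase x).card : ℝ) * (256 * a / 4 ^ n) := by
          simp only [Finset.sum_const, nsmul_eq_mul]
      _ ≤ ∑ x ∈ I, (I.card : ℝ) * (256 * a / 4 ^ n) :=
          Finset.sum_le_sum (fun x hx => mul_le_mul_of_nonneg_right
            (Nat.cast_le.mpr (Finset.card_le_card (Finset.erase_subset _ _))) (by positivity))
      _ = (I.card : ℝ) * ((I.card : ℝ) * (256 * a / 4 ^ n)) := by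
          rw [Finset.sum_const, nsmul_eq_mul]
  rw [h1] at hR
  rw [le_div_iff₀ ha0]
  rw [hIcard] at hR h2
  have e : ((n : ℝ) * ((n : ℝ) - 1) / 2 ^ n - 256 * ((n : ℝ) * ((n : ℝ) - 1)) ^ 2 / 4 ^ n) * a
      = (n : ℝ) * ((n : ℝ) - 1) * (a / 2 ^ n)
        - (n : ℝ) * ((n : ℝ) - 1) * ((n : ℝ) * ((n : ℝ) - 1) * (256 * a / 4 ^ n)) := by
    ring
  rw [e]
  linarith

theorem sum_choose_mul_pow_le (n k : ℕ) (lam : ℝ) (h0 : 0 < lam) (h1 : lam ≤ 1) :
    (∑ t ∈ Finset.range (k + 1), (n.choose t : ℝ)) * lam ^ k ≤ (1 + lam) ^ n := by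
  have e : (1 + lam) ^ n = ∑ t ∈ Finset.range (n + 1), (n.choose t : ℝ) * lam ^ t := by
    rw [add_comm, add_pow]
    refine Finset.sum_congr rfl (fun t _ => ?_)
    rw [one_pow, mul_one, mul_comm]
  rw [e, Finset.sum_mul]
  calc ∑ t ∈ Finset.range (k + 1), (n.choose t : ℝ) * lam ^ k
      ≤ ∑ t ∈ Finset.range (k + 1), (n.choose t : ℝ) * lam ^ t := by
        refine Finset.sum_le_sum (fun t ht => ?_)
        apply mul_le_mul_of_nonneg_left _ (Nat.cast_nonneg _)
        exact pow_le_pow_of_le_one h0.le h1 (Nat.lt_succ_iff.mp (Finset.mem_range.mp ht))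
    _ = ∑ t ∈ (Finset.range (k + 1)).filter (fun t => t < n + 1),
          (n.choose t : ℝ) * lam ^ t := by
        symm
        apply Finset.sum_filter_of_ne
        intro t _ hne
        by_contra hlt
        apply hne
        rw [Nat.choose_eq_zero_of_lt (by omega)]
        simp
    _ ≤ ∑ t ∈ Finset.range (n + 1), (n.choose t : ℝ) * lam ^ t := by
        apply Finset.sum_le_sum_of_subset_of_nonneg
        · intro t ht
          rw [Finset.mem_filter] at ht
          exact Finset.mem_range.mpr ht.2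
        · intro t _ _
          positivity

theorem tail_bound (n k : ℕ) (hk : 64 * k ≤ n) :
    (∑ t ∈ Finset.range (k + 1), (n.choose t : ℝ)) ^ 2 * (8 / 3) ^ (2 * k) * (3 / 8) ^ n
      ≤ (15 / 32) ^ n := by
  have hA := sum_choose_mul_pow_le n k (1 / 32) (by norm_num) (by norm_num)
  have hS0 : (0 : ℝ) ≤ ∑ t ∈ Finset.range (k + 1), (n.choose t : ℝ) :=
    Finset.sum_nonneg (fun t _ => Nat.cast_nonneg _)
  have hS : (∑ t ∈ Finset.range (k + 1), (n.choose t : ℝ)) ≤ (33 / 32) ^ n * 32 ^ k := by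
    have e : (∑ t ∈ Finset.range (k + 1), (n.choose t : ℝ))
        = (∑ t ∈ Finset.range (k + 1), (n.choose t : ℝ)) * (1 / 32) ^ k * 32 ^ k := by
      rw [mul_assoc, ← mul_pow]
      norm_num
    rw [e]
    have h33 : (1 + 1 / 32 : ℝ) = 33 / 32 := by norm_num
    rw [h33] at hA
    exact mul_le_mul_of_nonneg_right hA (by positivity)
  have hS2 : (∑ t ∈ Finset.range (k + 1), (n.choose t : ℝ)) ^ 2
      ≤ ((33 / 32) ^ n * 32 ^ k) ^ 2 := pow_le_pow_left₀ hS0 hS 2
  have hnum : ((256 : ℝ) / 3) ^ 2 ≤ (23 / 20) ^ 64 := by norm_num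
  have hk1 : (((256 : ℝ) / 3) ^ 2) ^ k ≤ (23 / 20) ^ n := by
    calc (((256 : ℝ) / 3) ^ 2) ^ k ≤ ((23 / 20) ^ 64) ^ k :=
          pow_le_pow_left₀ (by positivity) hnum k
      _ = (23 / 20) ^ (64 * k) := by rw [← pow_mul]
      _ ≤ (23 / 20) ^ n := pow_le_pow_right₀ (by norm_num) hk
  have e1 : ((33 / 32 : ℝ) ^ n * 32 ^ k) ^ 2 = ((33 / 32 : ℝ) ^ 2) ^ n * (32 ^ 2) ^ k := by
    rw [mul_pow, ← pow_mul, ← pow_mul, ← pow_mul, ← pow_mul, mul_comm n 2, mul_comm k 2]
  have e2 : ((8 : ℝ) / 3) ^ (2 * k) = ((8 / 3) ^ 2) ^ k := by rw [pow_mul]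
  have e3 : (((256 : ℝ) / 3) ^ 2) ^ k = (32 ^ 2) ^ k * ((8 / 3) ^ 2) ^ k := by
    rw [← mul_pow]
    norm_num
  have e4 : ((33 / 32 : ℝ) ^ 2 * (3 / 8)) ^ n = ((33 / 32) ^ 2) ^ n * (3 / 8) ^ n :=
    mul_pow _ _ _
  calc (∑ t ∈ Finset.range (k + 1), (n.choose t : ℝ)) ^ 2 * (8 / 3) ^ (2 * k) * (3 / 8) ^ n
      ≤ ((33 / 32) ^ n * 32 ^ k) ^ 2 * (8 / 3) ^ (2 * k) * (3 / 8) ^ n :=
        mul_le_mul_of_nonneg_right (mul_le_mul_of_nonneg_right hS2 (by positivity))
          (by positivity)
    _ = (((256 : ℝ) / 3) ^ 2) ^ k * ((33 / 32 : ℝ) ^ 2 * (3 / 8)) ^ n := by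
        rw [e1, e2, e3, e4]
        ring
    _ ≤ (23 / 20) ^ n * ((33 / 32 : ℝ) ^ 2 * (3 / 8)) ^ n :=
        mul_le_mul_of_nonneg_right hk1 (by positivity)
    _ = (23 / 20 * ((33 / 32 : ℝ) ^ 2 * (3 / 8))) ^ n := (mul_pow _ _ _).symm
    _ ≤ (15 / 32) ^ n := pow_le_pow_left₀ (by positivity) (by norm_num) n

end aux

/-- **Sharp count of sparse null vectors of symmetric random sign matrices, and a lower bound
for the singularity probability.**  A function `f : Sym2 (Fin n) → Bool` codes the symmetric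
`n × n` sign matrix with entries `a i j = 1` if `f s(i, j)` and `-1` otherwise; the uniform
distribution on such `f` is exactly the model with independent uniform signs on and above the
diagonal.  Write `L = n (n - 1) / 2^n - 256 (n (n - 1))^2 / 4^n`.

* The fraction of singular matrices is at least `L`.
* For every `k ≥ 2` the fraction of matrices having a nonzero null vector with at most `k`
  nonzero coordinates is at least `L` and at most
  `n (n - 1) / 2^n + (∑_{t ≤ k} C(n, t))^2 (8/3)^(2k) (3/8)^n`; if moreover `64 k ≤ n` it is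
  at most `n (n - 1) / 2^n + (15/32)^n`. -/
theorem result (n : ℕ) :
    ((n : ℝ) * ((n : ℝ) - 1) / 2 ^ n - 256 * ((n : ℝ) * ((n : ℝ) - 1)) ^ 2 / 4 ^ n
      ≤ (Set.ncard {f : Sym2 (Fin n) → Bool |
          (Matrix.of fun i j => if f s(i, j) then (1 : ℝ) else -1).det = 0} : ℝ)
        / Nat.card (Sym2 (Fin n) → Bool))
    ∧ ∀ k : ℕ, 2 ≤ k →
      ((n : ℝ) * ((n : ℝ) - 1) / 2 ^ n - 256 * ((n : ℝ) * ((n : ℝ) - 1)) ^ 2 / 4 ^ n
        ≤ (Set.ncard {f : Sym2 (Fin n) → Bool |
            ∃ v : Fin n → ℝ, v ≠ 0 ∧ (Function.support v).ncard ≤ k ∧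
              (Matrix.of fun i j => if f s(i, j) then (1 : ℝ) else -1).mulVec v = 0} : ℝ)
          / Nat.card (Sym2 (Fin n) → Bool))
      ∧ ((Set.ncard {f : Sym2 (Fin n) → Bool |
            ∃ v : Fin n → ℝ, v ≠ 0 ∧ (Function.support v).ncard ≤ k ∧
              (Matrix.of fun i j => if f s(i, j) then (1 : ℝ) else -1).mulVec v = 0} : ℝ)
          / Nat.card (Sym2 (Fin n) → Bool)
        ≤ (n : ℝ) * ((n : ℝ) - 1) / 2 ^ n
          + (∑ t ∈ Finset.range (k + 1), (n.choose t : ℝ)) ^ 2 * (8 / 3) ^ (2 * k)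
            * (3 / 8) ^ n)
      ∧ (64 * k ≤ n →
        (Set.ncard {f : Sym2 (Fin n) → Bool |
            ∃ v : Fin n → ℝ, v ≠ 0 ∧ (Function.support v).ncard ≤ k ∧
              (Matrix.of fun i j => if f s(i, j) then (1 : ℝ) else -1).mulVec v = 0} : ℝ)
          / Nat.card (Sym2 (Fin n) → Bool)
        ≤ (n : ℝ) * ((n : ℝ) - 1) / 2 ^ n + (15 / 32) ^ n) := by
  classical
  set U : Finset (Sym2 (Fin n) → Bool) :=
    ((Finset.univ : Finset (Fin n)).offDiag).biUnion pairEv with hU
  have hcardN : (Nat.card (Sym2 (Fin n) → Bool) : ℝ) = 2 ^ Fintype.card (Sym2 (Fin n)) := by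
    rw [Nat.card_eq_fintype_card, Fintype.card_fun, Fintype.card_bool]
    push_cast
    rfl
  have hlow := union_lower_real n
  have hupp := union_upper_real n
  rw [← hU] at hlow hupp
  rw [hcardN]
  have ha0 : (0 : ℝ) < 2 ^ Fintype.card (Sym2 (Fin n)) := by positivity
  -- members of `U` have a 2-sparse null vector
  have hUnull : ∀ f ∈ U, ∃ v : Fin n → ℝ, v ≠ 0 ∧ (Function.support v).ncard ≤ 2 ∧
      (Matrix.of fun i j => if f s(i, j) then (1 : ℝ) else -1).mulVec v = 0 := by
    intro f hf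
    rw [hU, Finset.mem_biUnion] at hf
    obtain ⟨x, hx, hfx⟩ := hf
    exact null_of_colEq f x.1 x.2 (Finset.mem_offDiag.mp hx).2.2 _ hfx
  refine ⟨?_, ?_⟩
  · -- singular matrices
    have hsub : (U : Set (Sym2 (Fin n) → Bool)) ⊆ {f : Sym2 (Fin n) → Bool |
        (Matrix.of fun i j => if f s(i, j) then (1 : ℝ) else -1).det = 0} := by
      intro f hf
      obtain ⟨v, hv, -, hAv⟩ := hUnull f (Finset.mem_coe.mp hf)
      exact Matrix.exists_mulVec_eq_zero_iff.mp ⟨v, hv, hAv⟩
    have hcard : (U.card : ℝ) ≤ (Set.ncard {f : Sym2 (Fin n) → Bool |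
        (Matrix.of fun i j => if f s(i, j) then (1 : ℝ) else -1).det = 0} : ℝ) := by
      have h := Set.ncard_le_ncard hsub (Set.toFinite _)
      rw [Set.ncard_coe_finset] at h
      exact Nat.cast_le.mpr h
    exact hlow.trans (div_le_div_of_nonneg_right hcard ha0.le)
  · intro k hk
    set Sk : Set (Sym2 (Fin n) → Bool) := {f : Sym2 (Fin n) → Bool |
        ∃ v : Fin n → ℝ, v ≠ 0 ∧ (Function.support v).ncard ≤ k ∧
          (Matrix.of fun i j => if f s(i, j) then (1 : ℝ) else -1).mulVec v = 0} with hSk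
    set S3 : Set (Sym2 (Fin n) → Bool) := {f : Sym2 (Fin n) → Bool |
        ∃ v : Fin n → ℝ, 3 ≤ (Function.support v).ncard ∧ (Function.support v).ncard ≤ k ∧
          (Matrix.of fun i j => if f s(i, j) then (1 : ℝ) else -1).mulVec v = 0} with hS3
    have h3 := (Vale.Agent.Results.P160.SparseKernelLO.result n k).1
    rw [hcardN, ← hS3] at h3
    have hmain : (Sk.ncard : ℝ) / 2 ^ Fintype.card (Sym2 (Fin n))
        ≤ (n : ℝ) * ((n : ℝ) - 1) / 2 ^ n
          + (∑ t ∈ Finset.range (k + 1), (n.choose t : ℝ)) ^ 2 * (8 / 3) ^ (2 * k)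
            * (3 / 8) ^ n := by
      have hsub : Sk ⊆ (U : Set (Sym2 (Fin n) → Bool)) ∪ S3 := by
        intro f hf
        obtain ⟨v, hv, hvk, hAv⟩ := hf
        by_cases h2 : (Function.support v).ncard ≤ 2
        · left
          obtain ⟨x, hx, hfx⟩ := cover2 f v hv h2 hAv
          rw [Finset.mem_coe, hU, Finset.mem_biUnion]
          exact ⟨x, Finset.mem_offDiag.mpr ⟨Finset.mem_univ _, Finset.mem_univ _, hx⟩, hfx⟩
        · right
          exact ⟨v, by omega, hvk, hAv⟩
      have hcard : (Sk.ncard : ℝ) ≤ (U.card : ℝ) + (S3.ncard : ℝ) := by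
        have h1 : Sk.ncard ≤ ((U : Set (Sym2 (Fin n) → Bool)) ∪ S3).ncard :=
          Set.ncard_le_ncard hsub (Set.toFinite _)
        have h2 : ((U : Set (Sym2 (Fin n) → Bool)) ∪ S3).ncard
            ≤ (U : Set (Sym2 (Fin n) → Bool)).ncard + S3.ncard := Set.ncard_union_le _ _
        rw [Set.ncard_coe_finset] at h2
        have h4 : ((Sk.ncard : ℕ) : ℝ) ≤ ((U.card + S3.ncard : ℕ) : ℝ) :=
          Nat.cast_le.mpr (h1.trans h2)
        push_cast at h4
        exact h4
      calc (Sk.ncard : ℝ) / 2 ^ Fintype.card (Sym2 (Fin n))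
          ≤ ((U.card : ℝ) + (S3.ncard : ℝ)) / 2 ^ Fintype.card (Sym2 (Fin n)) :=
            div_le_div_of_nonneg_right hcard ha0.le
        _ = (U.card : ℝ) / 2 ^ Fintype.card (Sym2 (Fin n))
            + (S3.ncard : ℝ) / 2 ^ Fintype.card (Sym2 (Fin n)) := add_div _ _ _
        _ ≤ (n : ℝ) * ((n : ℝ) - 1) / 2 ^ n
            + (∑ t ∈ Finset.range (k + 1), (n.choose t : ℝ)) ^ 2 * (8 / 3) ^ (2 * k)
              * (3 / 8) ^ n := add_le_add hupp h3
    refine ⟨?_, hmain, fun h64 => hmain.trans (by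
      have := tail_bound n k h64
      linarith)⟩
    · have hsub : (U : Set (Sym2 (Fin n) → Bool)) ⊆ Sk := by
        intro f hf
        obtain ⟨v, hv, hv2, hAv⟩ := hUnull f (Finset.mem_coe.mp hf)
        exact ⟨v, hv, hv2.trans hk, hAv⟩
      have hcard : (U.card : ℝ) ≤ (Sk.ncard : ℝ) := by
        have h := Set.ncard_le_ncard hsub (Set.toFinite _)
        rw [Set.ncard_coe_finset] at h
        exact Nat.cast_le.mpr h
      exact hlow.trans (div_le_div_of_nonneg_right hcard ha0.le)

end Vale.Agent.Results.P160.SparseKernelSharp
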